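import Vale.Agent.P369.H468.Abs
import Vale.Agent.P369.H809.Prod

/-!
P369 (helper468): the isoperimetric inequality from the loss path, for an abstract path.
-/

set_option linter.all false

namespace Vale.Agent.P369Q

open MeasureTheory Set Filter
open Vale.Agent.P369 (Conf up down)
open Vale.Agent.P369A
open Vale.Agent.P369F
open Vale.Agent.P369N (bb cm bb_pos mul_bb_lt lt_mul_bb bb_eq hasDerivAt_bb one_lt_aux)
open scoped ENNReal Topology ComplexOrder

noncomputable section

variable {n : ℕ}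

/-- a level for one mode, both branches -/
theorem level_mode {s : Ker n} (hs : ∀ X, (cut X s).PosDef) {j : Fin n} {e gp gm r : ℝ}
    (hr : 0 < r) (htr : Tendsto (trX s) atTop (𝓝 1))
    (hen : Tendsto (fun X => enXj s X j) atTop (𝓝 e))
    (hgp : ∀ X, ∫ m in (0 : ℝ)..1, (1 - m) * FXj m s X j ≤ gp)
    (hgm : ∀ X, ∫ m in (0 : ℝ)..1, m * FXj m s X j ≤ gm) :
    ∃ l ∈ Icc (0 : ℝ) 1, ∀ Y, Kf r (fun ν => IXj ν r s Y j) l ≤
      (e - r) * bb r + min (r * (1 + gp) - (r + 1) * (1 - gm)) (cm r * (r * bb r - (1 - gm))) := by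
  have hcI : ∀ Y, ContinuousOn (fun ν => IXj ν r s Y j) (Icc 0 1) := by
    intro Y
    have h1 := continuousOn_IXj (S := {(0 : ℝ)}) (s := fun _ => s) (r := fun _ => r)
      (fun k _ X => hs X) (fun x y => continuousOn_const) continuousOn_const Y j
    exact h1.comp (f := fun ν : ℝ => ((0 : ℝ), ν)) (by fun_prop) fun ν hν => ⟨rfl, hν⟩
  have hlim1 : Tendsto (fun X => enXj s (X + 1) j) atTop (𝓝 e) :=
    hen.comp (tendsto_add_atTop_nat 1)
  have hFi : ∀ Y, IntervalIntegrable (fun m => FXj m s Y j) volume 0 1 := fun Y => int_FXj hs Y j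
  have cw1 : ContinuousOn (fun ν : ℝ => 1 / (r + ν)) (Icc 0 1) := cont_w1 hr fun x hx => hx.1
  have cw2 : ContinuousOn (fun ν : ℝ => ν / (r + ν) ^ 2) (Icc 0 1) := cont_w2 hr fun x hx => hx.1
  rcases le_total (r * (1 + gp) - (r + 1) * (1 - gm)) (cm r * (r * bb r - (1 - gm))) with h | h
  · -- branch `u`
    rw [min_eq_left h]
    refine ⟨0, ⟨le_rfl, zero_le_one⟩, fun Y => ?_⟩
    rw [Kf_zero]
    have hmono : ∀ Y', Y ≤ Y' → ∫ ν in (0 : ℝ)..1, 1 / (r + ν) * IXj ν r s Y j ≤
        r * gp + (r + 1) * gm + (1 + (r + 1) * bb r) * enXj s (Y' + 1) j -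
          (1 + r * bb r) * (enXj s Y' j + trX s Y') := by
      intro Y' hY
      have h1 : ∫ ν in (0 : ℝ)..1, 1 / (r + ν) * IXj ν r s Y j ≤
          ∫ ν in (0 : ℝ)..1, 1 / (r + ν) * IXj ν r s Y' j := by
        refine intervalIntegral.integral_mono_on zero_le_one (ii_Icc zero_le_one (cw1.mul (hcI Y)))
          (ii_Icc zero_le_one (cw1.mul (hcI Y'))) fun ν hν => ?_
        have := hν.1
        exact mul_le_mul_of_nonneg_left (IXj_mono hs hν r j hY) (by positivity)
      rw [int_IXj_U hs hr Y' j] at h1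
      have h2 : ∫ m in (0 : ℝ)..1, (r + m) * FXj m s Y' j =
          r * (∫ m in (0 : ℝ)..1, (1 - m) * FXj m s Y' j) +
            (r + 1) * ∫ m in (0 : ℝ)..1, m * FXj m s Y' j := by
        have i1 : IntervalIntegrable (fun m => (1 - m) * FXj m s Y' j) volume 0 1 :=
          (hFi Y').continuousOn_mul (by fun_prop)
        have i2 : IntervalIntegrable (fun m => m * FXj m s Y' j) volume 0 1 :=
          (hFi Y').continuousOn_mul (by fun_prop)
        rw [← intervalIntegral.integral_const_mul, ← intervalIntegral.integral_const_mul,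
          ← intervalIntegral.integral_add (i1.const_mul r) (i2.const_mul (r + 1))]
        congr 1
        funext m
        ring
      rw [h2] at h1
      have h3 := mul_le_mul_of_nonneg_left (hgp Y') hr.le
      have h4 := mul_le_mul_of_nonneg_left (hgm Y') (by linarith : (0 : ℝ) ≤ r + 1)
      change _ ≤ _ + (1 + (r + 1) * bb r) * _ - (1 + r * bb r) * _ at h1
      linarith
    have hlim : Tendsto (fun Y' => r * gp + (r + 1) * gm + (1 + (r + 1) * bb r) *
        enXj s (Y' + 1) j - (1 + r * bb r) * (enXj s Y' j + trX s Y')) atTop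
        (𝓝 (r * gp + (r + 1) * gm + (1 + (r + 1) * bb r) * e - (1 + r * bb r) * (e + 1))) :=
      ((hlim1.const_mul _).const_add _).sub ((hen.add htr).const_mul _)
    have h5 := ge_of_tendsto hlim ((eventually_ge_atTop Y).mono hmono)
    refine h5.trans (le_of_eq ?_)
    ring
  · -- branch `w`
    rw [min_eq_right h]
    refine exists_level hr hcI (fun Y ν hν => IXj_nonneg hs hν r Y j)
      (fun ν hν => IXj_mono hs hν r j) (fun Y => IXj_convex hs r Y j) fun Y => ?_
    have hcm : 0 < cm r := by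
      have := cm_sub_one hr
      have h1 := lt_mul_bb hr
      have : 0 < 1 / ((r + 1) * bb r - 1) := by
        have : 0 < (r + 1) * bb r - 1 := by linarith
        positivity
      linarith
    have hmono : ∀ Y', Y ≤ Y' → ∫ ν in (0 : ℝ)..1, ν / (r + ν) ^ 2 * IXj ν r s Y j ≤
        gm + bb r * enXj s (Y' + 1) j - 1 / (1 + r) * (enXj s Y' j + trX s Y') := by
      intro Y' hY
      have h1 : ∫ ν in (0 : ℝ)..1, ν / (r + ν) ^ 2 * IXj ν r s Y j ≤
          ∫ ν in (0 : ℝ)..1, ν / (r + ν) ^ 2 * IXj ν r s Y' j := by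
        refine intervalIntegral.integral_mono_on zero_le_one (ii_Icc zero_le_one (cw2.mul (hcI Y)))
          (ii_Icc zero_le_one (cw2.mul (hcI Y'))) fun ν hν => ?_
        have := hν.1
        exact mul_le_mul_of_nonneg_left (IXj_mono hs hν r j hY) (by positivity)
      rw [int_IXj_D hs hr Y' j] at h1
      have h4 := hgm Y'
      change _ ≤ _ + bb r * _ - _ at h1
      linarith
    have hlim : Tendsto (fun Y' => gm + bb r * enXj s (Y' + 1) j -
        1 / (1 + r) * (enXj s Y' j + trX s Y')) atTop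
        (𝓝 (gm + bb r * e - 1 / (1 + r) * (e + 1))) :=
      ((hlim1.const_mul _).const_add _).sub ((hen.add htr).const_mul _)
    have h5 := ge_of_tendsto hlim ((eventually_ge_atTop Y).mono hmono)
    refine (mul_le_mul_of_nonneg_left h5 hcm.le).trans (le_of_eq ?_)
    have h6 := cm_key hr
    have h7 : 1 / (1 + r) * (e + 1) = (e - r) * (1 / (r + 1)) + 1 := by
      have : r + 1 ≠ 0 := by positivity
      have : 1 + r ≠ 0 := by positivity
      field_simp
      ring
    rw [h7]
    linear_combination (e - r) * h6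

/-- `ψ(x) = x e log(1+1/(x r)) + log(x r + 1)` -/
def psi (e r x : ℝ) : ℝ := x * e * bb (x * r) + Real.log (x * r + 1)

theorem hasDerivAt_psi {e r x : ℝ} (hr : 0 < r) (hx : 0 < x) :
    HasDerivAt (psi e r) (1 / x * (x * e * bb (x * r) + 1 - (x * e + 1) / (1 + x * r))) x := by
  have h0 : 0 < x * r := mul_pos hx hr
  have h1 : HasDerivAt (fun x : ℝ => x * r) r x := by simpa using (hasDerivAt_id x).mul_const r
  have h2 : HasDerivAt (fun x : ℝ => x * e) e x := by simpa using (hasDerivAt_id x).mul_const e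
  have h3 : HasDerivAt (fun x : ℝ => bb (x * r)) (-(1 / (x * r * (x * r + 1))) * r) x :=
    HasDerivAt.comp (h₂ := bb) (h := fun x : ℝ => x * r) x (hasDerivAt_bb h0) h1
  have h4 : HasDerivAt (fun x : ℝ => Real.log (x * r + 1)) (r / (x * r + 1)) x :=
    (h1.add_const 1).log (by positivity)
  refine ((h2.mul h3).add h4).congr_deriv ?_
  have : x * r + 1 ≠ 0 := by positivity
  have : 1 + x * r ≠ 0 := by positivity
  field_simp
  ring

theorem g_eq {x : ℝ} (hx : 0 < x) : P369.g x = x * bb x + Real.log (x + 1) := by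
  rw [bb_eq hx]
  unfold P369.g
  ring

theorem psi_one (e : ℝ) {r : ℝ} (hr : 0 < r) : psi e r 1 = (e - r) * bb r + P369.g r := by
  rw [g_eq hr]
  unfold psi
  rw [one_mul, one_mul]
  ring

theorem tendsto_psi {e r : ℝ} (hr : 0 < r) : Tendsto (psi e r) (𝓝[>] 0) (𝓝 0) := by
  have h1 : Tendsto (fun x : ℝ => P369.g (x * r)) (𝓝[>] 0) (𝓝 0) := by
    have h2 : Continuous fun x : ℝ => P369.g (x * r) := P369V.a6_continuous_g.comp (by fun_prop)
    have h3 := (h2.tendsto 0).mono_left (nhdsWithin_le_nhds (s := Ioi (0 : ℝ)))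
    rwa [zero_mul, P369V.a6_g_zero] at h3
  have h2 : Tendsto (fun x : ℝ => Real.log (x * r + 1)) (𝓝[>] 0) (𝓝 0) := by
    have h3 : ContinuousAt (fun x : ℝ => Real.log (x * r + 1)) 0 :=
      ContinuousAt.log (by fun_prop) (by norm_num)
    have h4 := h3.tendsto.mono_left (nhdsWithin_le_nhds (s := Ioi (0 : ℝ)))
    simpa using h4
  have h3 : Tendsto (fun x : ℝ => e / r * (P369.g (x * r) - Real.log (x * r + 1)) +
      Real.log (x * r + 1)) (𝓝[>] 0) (𝓝 (e / r * (0 - 0) + 0)) :=
    ((h1.sub h2).const_mul _).add h2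
  rw [sub_zero, mul_zero, add_zero] at h3
  refine h3.congr' ?_
  filter_upwards [self_mem_nhdsWithin] with x hx
  have hx : 0 < x := hx
  rw [g_eq (mul_pos hx hr)]
  unfold psi
  field_simp
  ring

/-- the isoperimetric inequality from an abstract loss path -/
theorem hot_abs {A : ℝ → Ker n} {En : Fin n → ℝ}
    (hpos : ∀ x ∈ Ioc (0 : ℝ) 1, ∀ X, (cut X (A x)).PosDef)
    (hcont : ∀ p q, ContinuousOn (fun x => A x p q) (Ioc (0 : ℝ) 1))
    (htrle : ∀ x ∈ Ioc (0 : ℝ) 1, ∀ X, trX (A x) X ≤ 1)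
    (htr : Tendsto (trX (A 1)) atTop (𝓝 1))
    (henle : ∀ x ∈ Ioc (0 : ℝ) 1, ∀ j X, enXj (A x) X j ≤ x * En j)
    (hen : ∀ x ∈ Ioc (0 : ℝ) 1, ∀ j, Tendsto (fun X => enXj (A x) X j) atTop (𝓝 (x * En j)))
    (hS0 : ∀ x ∈ Ioc (0 : ℝ) 1, 0 ≤ Sl (A x))
    (hflow : ∀ x₀ ∈ Ioc (0 : ℝ) 1, ∀ ε > 0, ∀ᶠ X in atTop, Sl (A x₀) - Sl (A 1) - ε ≤
      ∫ x in x₀..1, 1 / x * ∑ j, ((∫ m in (0 : ℝ)..1, m * FXj m (A x) X j) - 1))
    (hdp : ∀ j, ∀ r : ℝ, 0 < r → ∀ x ∈ Ioc (0 : ℝ) 1, ∀ ν ∈ Icc (0 : ℝ) 1, ∀ Y, ∀ ε > 0, ∃ Y',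
      IXj ν (x * r) (A x) Y j ≤ x * IXj ν r (A 1) Y' j + ε)
    (hsa : ∀ j, ∀ r : ℝ, 0 < r → ∀ l s t : ℝ, 0 < l → 0 < s → 0 < t → s + t ≤ 1 →
      (s + t) * l ≤ 1 → ∀ Y, ∀ ε > 0, ∃ Y', IXj (s * l) (s * r) (A s) Y j +
        IXj (t * l) (t * r) (A t) Y j ≤ IXj ((s + t) * l) ((s + t) * r) (A (s + t)) Y' j + ε)
    {gp gm : Fin n → ℝ} (hgp : ∀ j X, ∫ m in (0 : ℝ)..1, (1 - m) * FXj m (A 1) X j ≤ gp j)
    (hgm : ∀ j X, ∫ m in (0 : ℝ)..1, m * FXj m (A 1) X j ≤ gm j)
    {r : Fin n → ℝ} (hr : ∀ j, 0 < r j) :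
    ∑ j, (P369.g (r j) - min (r j * (1 + gp j) - (r j + 1) * (1 - gm j))
      (cm (r j) * (r j * bb (r j) - (1 - gm j)))) ≤ Sl (A 1) := by
  have hone : (1 : ℝ) ∈ Ioc (0 : ℝ) 1 := ⟨one_pos, le_rfl⟩
  have hE0 : ∀ j, 0 ≤ En j := by
    intro j
    have h1 := hen 1 hone j
    rw [one_mul] at h1
    refine ge_of_tendsto' h1 fun X => ?_
    unfold enXj
    refine Finset.sum_nonneg fun x _ => mul_nonneg (Nat.cast_nonneg _) ?_
    have := (hpos 1 hone X).posSemidef.diag_nonneg (i := x)
    exact (Complex.le_def.1 this).1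
  set W : Fin n → ℝ := fun j => min (r j * (1 + gp j) - (r j + 1) * (1 - gm j))
      (cm (r j) * (r j * bb (r j) - (1 - gm j))) with hW
  set C : Fin n → ℝ := fun j => (En j - r j) * bb (r j) + W j with hC
  -- the path integrals
  set G : ℕ → Fin n → ℝ → ℝ := fun X j x =>
    ∫ ν in (0 : ℝ)..1, ν / (x * r j + ν) ^ 2 * IXj ν (x * r j) (A x) X j with hG
  have hIc : ∀ Y j, ContinuousOn (fun p : ℝ × ℝ => IXj p.2 (p.1 * r j) (A p.1) Y j)
      (Ioc (0 : ℝ) 1 ×ˢ Icc (0 : ℝ) 1) := fun Y j =>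
    continuousOn_IXj (r := fun x => x * r j) hpos hcont (by fun_prop) Y j
  have hpath : ∀ j, ∀ x₀ : ℝ, 0 < x₀ → x₀ ≤ 1 → ∀ X, ∫ x in x₀..1, 1 / x * G X j x ≤ C j := by
    intro j x₀ hx0 hx1 X
    have hen1 := hen 1 hone j
    rw [one_mul] at hen1
    obtain ⟨l, hl, hlev⟩ := level_mode (hpos 1 hone) (hr j) htr hen1 (hgp j) (hgm j)
    refine a2_abs (I := fun Y ν x => IXj ν (x * r j) (A x) Y j) (hr j) (fun Y => hIc Y j)
      (fun Y x hx ν hν => IXj_nonneg (hpos x hx) hν _ Y j)
      (fun x hx ν hν => IXj_mono (hpos x hx) hν _ j) ?_ (hsa j (r j) (hr j)) hl ?_ hx0 hx1 X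
    · intro x hx ν hν Y ε hε
      simpa only [one_mul] using hdp j (r j) (hr j) x hx ν hν Y ε hε
    · intro Y
      simpa only [one_mul] using hlev Y
  -- the estimate at `x₀`
  have key : ∀ x₀ : ℝ, 0 < x₀ → x₀ ≤ 1 →
      Sl (A x₀) - Sl (A 1) ≤ ∑ j, (C j - (psi (En j) (r j) 1 - psi (En j) (r j) x₀)) := by
    intro x₀ hx0 hx1
    have hsub : ∀ x ∈ Icc x₀ 1, x ∈ Ioc (0 : ℝ) 1 := fun x hx => ⟨hx0.trans_le hx.1, hx.2⟩
    have hss : Icc x₀ 1 ⊆ Ioc (0 : ℝ) 1 := hsub
    -- continuity
    have cA : ∀ p q, ContinuousOn (fun x => A x p q) (Icc x₀ 1) := fun p q =>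
      (hcont p q).mono hss
    have cE : ∀ X j, ContinuousOn (fun x => enXj (A x) X j) (Icc x₀ 1) := by
      intro X j
      unfold enXj
      refine continuousOn_finsetSum _ fun p _ => continuousOn_const.mul ?_
      exact Complex.continuous_re.comp_continuousOn (cA _ _)
    have cG : ∀ X j, ContinuousOn (G X j) (Icc x₀ 1) := by
      intro X j
      have h1 : ContinuousOn (fun p : ℝ × ℝ => p.2 / (p.1 * r j + p.2) ^ 2 *
          IXj p.2 (p.1 * r j) (A p.1) X j) (Icc x₀ 1 ×ˢ Icc (0 : ℝ) 1) := by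
        refine ContinuousOn.mul (ContinuousOn.div (by fun_prop) (by fun_prop) ?_)
          ((hIc X j).mono (prod_mono hss Subset.rfl))
        rintro ⟨x, ν⟩ ⟨hx, hν⟩
        have h1 := (hsub x hx).1
        have h2 := hν.1
        have h3 := hr j
        simp only
        positivity
      exact g4_param (F := fun x ν => ν / (x * r j + ν) ^ 2 * IXj ν (x * r j) (A x) X j) h1
    have cinv : ContinuousOn (fun x : ℝ => 1 / x) (Icc x₀ 1) :=
      continuousOn_const.div continuousOn_id fun x hx => (hsub x hx).1.ne'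
    have cbb : ∀ j, ContinuousOn (fun x : ℝ => bb (x * r j)) (Icc x₀ 1) := by
      intro j x hx
      have h1 : 0 < x * r j := mul_pos (hsub x hx).1 (hr j)
      exact ((hasDerivAt_bb h1).continuousAt.comp (f := fun x : ℝ => x * r j)
        (by fun_prop)).continuousWithinAt
    set err : ℕ → Fin n → ℝ := fun X j =>
      ∫ x in x₀..1, 1 / x * bb (x * r j) * (x * En j - enXj (A x) (X + 1) j) with herr
    have cerr : ∀ X j, ContinuousOn (fun x => 1 / x * bb (x * r j) *
        (x * En j - enXj (A x) (X + 1) j)) (Icc x₀ 1) := fun X j =>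
      (cinv.mul (cbb j)).mul ((by fun_prop : ContinuousOn (fun x : ℝ => x * En j)
        (Icc x₀ 1)).sub (cE (X + 1) j))
    have herr0 : ∀ j, Tendsto (fun X => err X j) atTop (𝓝 0) := by
      intro j
      have h0 : (0 : ℝ) = ∫ x in x₀..1, (0 : ℝ) := by simp
      rw [h0]
      refine intervalIntegral.tendsto_integral_filter_of_dominated_convergence
        (fun x => 1 / x * bb (x * r j) * En j) ?_ ?_ ?_ ?_
      · refine Eventually.of_forall fun X => ?_
        rw [uIoc_of_le hx1]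
        exact ((cerr X j).mono Ioc_subset_Icc_self).aestronglyMeasurable measurableSet_Ioc
      · refine Eventually.of_forall fun X => Eventually.of_forall fun x hx => ?_
        rw [uIoc_of_le hx1] at hx
        have hx' := hsub x (Ioc_subset_Icc_self hx)
        have h1 : 0 < 1 / x := by have := hx'.1; positivity
        have h2 := bb_pos (mul_pos hx'.1 (hr j))
        have h3 := henle x hx' j (X + 1)
        have h4 : 0 ≤ enXj (A x) (X + 1) j := by
          unfold enXj
          refine Finset.sum_nonneg fun p _ => mul_nonneg (Nat.cast_nonneg _) ?_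
          have := (hpos x hx' (X + 1)).posSemidef.diag_nonneg (i := p)
          exact (Complex.le_def.1 this).1
        rw [Real.norm_eq_abs, abs_of_nonneg (mul_nonneg (mul_pos h1 h2).le (by linarith))]
        refine mul_le_mul_of_nonneg_left ?_ (mul_pos h1 h2).le
        have h5 : x * En j ≤ En j := mul_le_of_le_one_left (hE0 j) hx'.2
        linarith
      · exact ii_Icc hx1 ((cinv.mul (cbb j)).mul continuousOn_const)
      · refine Eventually.of_forall fun x hx => ?_
        rw [uIoc_of_le hx1] at hx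
        have hx' := hsub x (Ioc_subset_Icc_self hx)
        have h1 := (hen x hx' j).comp (tendsto_add_atTop_nat 1)
        have h2 := (h1.const_sub (x * En j)).const_mul (1 / x * bb (x * r j))
        rwa [sub_self, mul_zero] at h2
    -- the pointwise bound
    have hpt : ∀ X, ∀ x ∈ Icc x₀ 1,
        1 / x * ∑ j, ((∫ m in (0 : ℝ)..1, m * FXj m (A x) X j) - 1) ≤
        ∑ j, (1 / x * G X j x - 1 / x * (x * En j * bb (x * r j) + 1 -
          (x * En j + 1) / (1 + x * r j)) +
          1 / x * bb (x * r j) * (x * En j - enXj (A x) (X + 1) j)) := by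
      intro X x hx
      have hx' := hsub x hx
      have hxi : 0 < 1 / x := by have := hx'.1; positivity
      rw [Finset.mul_sum]
      refine Finset.sum_le_sum fun j _ => ?_
      have hxr : 0 < x * r j := mul_pos hx'.1 (hr j)
      have h1 := int_IXj_D (hpos x hx') hxr X j
      have h2 : G X j x = (∫ m in (0 : ℝ)..1, m * FXj m (A x) X j) +
          bb (x * r j) * enXj (A x) (X + 1) j -
          1 / (1 + x * r j) * (enXj (A x) X j + trX (A x) X) := h1
      have h3 : 1 / (1 + x * r j) * (enXj (A x) X j + trX (A x) X) ≤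
          (x * En j + 1) / (1 + x * r j) := by
        rw [one_div, inv_mul_eq_div]
        apply div_le_div_of_nonneg_right _ (by positivity)
        exact add_le_add (henle x hx' j X) (htrle x hx' X)
      have h4 : (∫ m in (0 : ℝ)..1, m * FXj m (A x) X j) - 1 ≤
          G X j x - (x * En j * bb (x * r j) + 1 - (x * En j + 1) / (1 + x * r j)) +
          bb (x * r j) * (x * En j - enXj (A x) (X + 1) j) := by
        rw [h2]
        linarith
      have h5 := mul_le_mul_of_nonneg_left h4 hxi.le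
      refine h5.trans (le_of_eq ?_)
      ring
    have cd : ∀ j, ContinuousOn (fun x : ℝ => 1 / x * (x * En j * bb (x * r j) + 1 -
          (x * En j + 1) / (1 + x * r j))) (Icc x₀ 1) := by
      intro j
      refine cinv.mul ((((by fun_prop : ContinuousOn (fun x : ℝ => x * En j)
        (Icc x₀ 1)).mul (cbb j)).add continuousOn_const).sub ?_)
      refine ContinuousOn.div (by fun_prop) (by fun_prop) fun x hx => ?_
      have h1 := (hsub x hx).1
      have h3 := hr j
      positivity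
    have cl : ∀ X, ContinuousOn (fun x => 1 / x * ∑ j,
        ((∫ m in (0 : ℝ)..1, m * FXj m (A x) X j) - 1)) (Icc x₀ 1) := by
      intro X
      refine cinv.mul (continuousOn_finsetSum _ fun j _ => ContinuousOn.sub ?_ continuousOn_const)
      exact (continuousOn_int_w (w := fun m => m) hpos hcont (by fun_prop) X j).mono hss
    have hint : ∀ X, ∫ x in x₀..1, 1 / x * ∑ j, ((∫ m in (0 : ℝ)..1, m * FXj m (A x) X j) - 1) ≤
        ∑ j, (C j - (psi (En j) (r j) 1 - psi (En j) (r j) x₀) + err X j) := by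
      intro X
      have i1 : ∀ j, IntervalIntegrable (fun x => 1 / x * G X j x) volume x₀ 1 := fun j =>
        ii_Icc hx1 (cinv.mul (cG X j))
      have i2 : ∀ j, IntervalIntegrable (fun x : ℝ => 1 / x * (x * En j * bb (x * r j) + 1 -
          (x * En j + 1) / (1 + x * r j))) volume x₀ 1 := fun j => ii_Icc hx1 (cd j)
      have i3 : ∀ j, IntervalIntegrable (fun x => 1 / x * bb (x * r j) *
          (x * En j - enXj (A x) (X + 1) j)) volume x₀ 1 := fun j => ii_Icc hx1 (cerr X j)
      have i4 : ∀ j, IntervalIntegrable (fun x => 1 / x * G X j x - 1 / x *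
          (x * En j * bb (x * r j) + 1 - (x * En j + 1) / (1 + x * r j)) +
          1 / x * bb (x * r j) * (x * En j - enXj (A x) (X + 1) j)) volume x₀ 1 := fun j =>
        ((i1 j).sub (i2 j)).add (i3 j)
      have h1 := intervalIntegral.integral_mono_on (f := fun x => 1 / x * ∑ j,
        ((∫ m in (0 : ℝ)..1, m * FXj m (A x) X j) - 1)) hx1 (ii_Icc hx1 (cl X))
        (IntervalIntegrable.sum Finset.univ fun j _ => i4 j) (fun x hx => by
          have := hpt X x hx
          simpa only [Finset.sum_apply] using this)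
      refine h1.trans ?_
      have h2 : (∫ x in x₀..1, (∑ j, fun x => 1 / x * G X j x - 1 / x *
          (x * En j * bb (x * r j) + 1 - (x * En j + 1) / (1 + x * r j)) +
          1 / x * bb (x * r j) * (x * En j - enXj (A x) (X + 1) j)) x) =
          ∑ j, ∫ x in x₀..1, (1 / x * G X j x - 1 / x *
          (x * En j * bb (x * r j) + 1 - (x * En j + 1) / (1 + x * r j)) +
          1 / x * bb (x * r j) * (x * En j - enXj (A x) (X + 1) j)) := by
        rw [← intervalIntegral.integral_finsetSum fun j _ => i4 j]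
        simp only [Finset.sum_apply]
      refine (le_of_eq h2).trans ?_
      refine Finset.sum_le_sum fun j _ => ?_
      rw [intervalIntegral.integral_add ((i1 j).sub (i2 j)) (i3 j),
        intervalIntegral.integral_sub (i1 j) (i2 j)]
      have h3 : ∫ x in x₀..1, 1 / x * (x * En j * bb (x * r j) + 1 -
          (x * En j + 1) / (1 + x * r j)) = psi (En j) (r j) 1 - psi (En j) (r j) x₀ := by
        refine intervalIntegral.integral_eq_sub_of_hasDerivAt (fun x hx => ?_) (i2 j)
        rw [uIcc_of_le hx1] at hx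
        exact hasDerivAt_psi (hr j) (hsub x hx).1
      rw [h3]
      have h4 := hpath j x₀ hx0 hx1 X
      linarith
    -- the limit
    refine le_of_forall_pos_le_add fun ε hε => ?_
    have h1 : Tendsto (fun X => ∑ j, (C j - (psi (En j) (r j) 1 - psi (En j) (r j) x₀) +
        err X j)) atTop (𝓝 (∑ j, (C j - (psi (En j) (r j) 1 - psi (En j) (r j) x₀) + 0))) :=
      tendsto_finsetSum _ fun j _ => (herr0 j).const_add _
    simp only [add_zero] at h1
    have h2 : ∀ᶠ X in atTop, Sl (A x₀) - Sl (A 1) - ε ≤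
        ∑ j, (C j - (psi (En j) (r j) 1 - psi (En j) (r j) x₀) + err X j) :=
      (hflow x₀ ⟨hx0, hx1⟩ ε hε).mono fun X hX => hX.trans (hint X)
    have h3 := ge_of_tendsto h1 h2
    linarith
  -- the limit `x₀ → 0`
  have hlim : Tendsto (fun x₀ => ∑ j, (C j - (psi (En j) (r j) 1 - psi (En j) (r j) x₀)))
      (𝓝[>] 0) (𝓝 (∑ j, (C j - (psi (En j) (r j) 1 - 0)))) :=
    tendsto_finsetSum _ fun j _ =>
      ((tendsto_psi (e := En j) (hr j)).const_sub _).const_sub _
  have hfin : -Sl (A 1) ≤ ∑ j, (C j - (psi (En j) (r j) 1 - 0)) := by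
    refine ge_of_tendsto hlim ?_
    filter_upwards [Ioc_mem_nhdsGT (zero_lt_one (α := ℝ))] with x₀ hx
    have h1 := key x₀ hx.1 hx.2
    have h2 := hS0 x₀ hx
    linarith
  have h1 : ∑ j, (C j - (psi (En j) (r j) 1 - 0)) = -∑ j, (P369.g (r j) - W j) := by
    rw [← Finset.sum_neg_distrib]
    refine Finset.sum_congr rfl fun j _ => ?_
    rw [psi_one (En j) (hr j)]
    simp only [hC]
    ring
  rw [h1] at hfin
  linarith

end

end Vale.Agent.P369Q
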