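import Vale.Agent.P369.H468.Weight

/-!
P369 (helper468): the abstract bound for the path integral of truncated functionals (both
branches), and the choice of the level by compactness.
-/

namespace Vale.Agent.P369Q

open MeasureTheory Set Filter
open Vale.Agent.P369N (bb cm)
open scoped ENNReal Topology

noncomputable section

theorem ii_Icc {f : ℝ → ℝ} {a b : ℝ} (hab : a ≤ b) (hf : ContinuousOn f (Icc a b)) :
    IntervalIntegrable f volume a b := by
  apply ContinuousOn.intervalIntegrable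
  rwa [uIcc_of_le hab]

/-- a real interval integral of a nonnegative continuous function as a lower integral -/
theorem lint_eq {f : ℝ → ℝ} {a b : ℝ} (hab : a ≤ b) (hf : ContinuousOn f (Icc a b))
    (h0 : ∀ x ∈ Icc a b, 0 ≤ f x) :
    ∫⁻ x in Ioo a b, ENNReal.ofReal (f x) = ENNReal.ofReal (∫ x in a..b, f x) := by
  rw [intervalIntegral.integral_of_le hab, integral_Ioc_eq_integral_Ioo,
    ofReal_integral_eq_lintegral_ofReal]
  · exact (ContinuousOn.integrableOn_Icc hf).mono_set Ioo_subset_Icc_self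
  · rw [Filter.EventuallyLE, ae_restrict_iff' measurableSet_Ioo]
    exact Filter.Eventually.of_forall fun x hx => h0 x (Ioo_subset_Icc_self hx)

variable {J : ℝ → ℝ} {r : ℝ}

theorem Kf_cont (hr : 0 < r) (hc : ContinuousOn J (Icc 0 1)) : ContinuousOn (Kf r J) (Icc 0 1) := by
  have c1 : ContinuousOn (fun ν => 1 / (r + ν) * J ν) (Icc 0 1) :=
    (cont_w1 hr fun x hx => hx.1).mul hc
  have c2 : ContinuousOn (fun ν => ν / (r + ν) ^ 2 * J ν) (Icc 0 1) :=
    (cont_w2 hr fun x hx => hx.1).mul hc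
  have i1 : IntegrableOn (fun ν => 1 / (r + ν) * J ν) (uIcc 0 1) := by
    rw [uIcc_of_le (zero_le_one' ℝ)]; exact c1.integrableOn_Icc
  have i2 : IntegrableOn (fun ν => ν / (r + ν) ^ 2 * J ν) (uIcc 0 1) := by
    rw [uIcc_of_le (zero_le_one' ℝ)]; exact c2.integrableOn_Icc
  unfold Kf
  refine ContinuousOn.add (ContinuousOn.add ?_ ?_) ?_
  · have := intervalIntegral.continuousOn_primitive_interval i2
    rwa [uIcc_of_le (zero_le_one' ℝ)] at this
  · refine ContinuousOn.mul ?_ hc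
    refine continuousOn_id.div (by fun_prop) fun x hx => ?_
    have := hx.1
    positivity
  · have := intervalIntegral.continuousOn_primitive_interval_left i1
    rwa [uIcc_of_le (zero_le_one' ℝ)] at this

theorem Kf_mono {J' : ℝ → ℝ} (hr : 0 < r) (hc : ContinuousOn J (Icc 0 1))
    (hc' : ContinuousOn J' (Icc 0 1)) (h : ∀ ν ∈ Icc (0 : ℝ) 1, J ν ≤ J' ν) {l : ℝ}
    (hl : l ∈ Icc (0 : ℝ) 1) : Kf r J l ≤ Kf r J' l := by
  have c1 : ∀ {J : ℝ → ℝ}, ContinuousOn J (Icc 0 1) →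
      ContinuousOn (fun ν => 1 / (r + ν) * J ν) (Icc l 1) := fun hc =>
    (cont_w1 hr fun x hx => hl.1.trans hx.1).mul (hc.mono (Icc_subset_Icc_left hl.1))
  have c2 : ∀ {J : ℝ → ℝ}, ContinuousOn J (Icc 0 1) →
      ContinuousOn (fun ν => ν / (r + ν) ^ 2 * J ν) (Icc 0 l) := fun hc =>
    (cont_w2 hr fun x hx => hx.1).mul (hc.mono (Icc_subset_Icc_right hl.2))
  unfold Kf
  refine add_le_add (add_le_add ?_ ?_) ?_
  · refine intervalIntegral.integral_mono_on hl.1 (ii_Icc hl.1 (c2 hc)) (ii_Icc hl.1 (c2 hc'))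
      fun ν hν => ?_
    have := hν.1
    exact mul_le_mul_of_nonneg_left (h ν ⟨hν.1, hν.2.trans hl.2⟩) (by positivity)
  · have := hl.1
    exact mul_le_mul_of_nonneg_left (h l hl) (by positivity)
  · refine intervalIntegral.integral_mono_on hl.2 (ii_Icc hl.2 (c1 hc)) (ii_Icc hl.2 (c1 hc'))
      fun ν hν => ?_
    have := hl.1.trans hν.1
    exact mul_le_mul_of_nonneg_left (h ν ⟨hl.1.trans hν.1, hν.2⟩) (by positivity)

theorem Kf_zero : Kf r J 0 = ∫ ν in (0 : ℝ)..1, 1 / (r + ν) * J ν := by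
  unfold Kf
  simp

theorem Kf_nonneg (hr : 0 < r) (h0 : ∀ ν ∈ Icc (0 : ℝ) 1, 0 ≤ J ν) {l : ℝ}
    (hl : l ∈ Icc (0 : ℝ) 1) : 0 ≤ Kf r J l := by
  unfold Kf
  refine add_nonneg (add_nonneg ?_ ?_) ?_
  · refine intervalIntegral.integral_nonneg hl.1 fun ν hν => ?_
    have h1 := h0 ν ⟨hν.1, hν.2.trans hl.2⟩
    have := hν.1
    positivity
  · have h1 := h0 l hl
    have := hl.1
    positivity
  · refine intervalIntegral.integral_nonneg hl.2 fun ν hν => ?_
    have h1 := h0 ν ⟨hl.1.trans hν.1, hν.2⟩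
    have := hl.1.trans hν.1
    positivity

/-- one level for all cutoffs -/
theorem exists_level {J : ℕ → ℝ → ℝ} (hr : 0 < r) (hc : ∀ Y, ContinuousOn (J Y) (Icc 0 1))
    (h0 : ∀ Y, ∀ ν ∈ Icc (0 : ℝ) 1, 0 ≤ J Y ν)
    (hm : ∀ ν ∈ Icc (0 : ℝ) 1, Monotone fun Y => J Y ν)
    (hcv : ∀ Y, ConvexOn ℝ (Icc 0 1) (J Y)) {C : ℝ}
    (hC : ∀ Y, cm r * ∫ ν in (0 : ℝ)..1, ν / (r + ν) ^ 2 * J Y ν ≤ C) :
    ∃ l ∈ Icc (0 : ℝ) 1, ∀ Y, Kf r (J Y) l ≤ C := by
  set L : ℕ → Set ℝ := fun Y => {l | l ∈ Icc (0 : ℝ) 1 ∧ Kf r (J Y) l ≤ C} with hL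
  have hcl : ∀ Y, IsClosed (L Y) := by
    intro Y
    have : L Y = Icc 0 1 ∩ Kf r (J Y) ⁻¹' Iic C := by
      ext l
      simp only [hL, mem_ofPred_eq, mem_inter_iff, mem_preimage, mem_Iic]
    rw [this]
    exact (Kf_cont hr (hc Y)).preimage_isClosed_of_isClosed isClosed_Icc isClosed_Iic
  have hne : (⋂ Y, L Y).Nonempty := by
    apply IsCompact.nonempty_iInter_of_sequence_nonempty_isCompact_isClosed
    · rintro Y l ⟨hl, h⟩
      exact ⟨hl, (Kf_mono hr (hc Y) (hc (Y + 1)) (fun ν hν => hm ν hν (Nat.le_succ Y)) hl).trans h⟩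
    · intro Y
      obtain ⟨l, hl, h⟩ := weight_w hr (hc Y) (hcv Y) (h0 Y)
      exact ⟨l, hl, h.trans (hC Y)⟩
    · exact isCompact_Icc.of_isClosed_subset (hcl 0) fun l hl => hl.1
    · exact hcl
  obtain ⟨l, hl⟩ := hne
  rw [mem_iInter] at hl
  exact ⟨l, (hl 0).1, fun Y => (hl Y).2⟩

/-- The path integral of the truncated functionals. `I Y ν x` is the functional at cutoff `Y` of
the state at time `x`. -/
theorem a2_abs {I : ℕ → ℝ → ℝ → ℝ} (hr : 0 < r)
    (hc : ∀ Y, ContinuousOn (fun p : ℝ × ℝ => I Y p.2 p.1) (Ioc (0 : ℝ) 1 ×ˢ Icc (0 : ℝ) 1))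
    (h0 : ∀ Y, ∀ x ∈ Ioc (0 : ℝ) 1, ∀ ν ∈ Icc (0 : ℝ) 1, 0 ≤ I Y ν x)
    (hm : ∀ x ∈ Ioc (0 : ℝ) 1, ∀ ν ∈ Icc (0 : ℝ) 1, Monotone fun Y => I Y ν x)
    (hdp : ∀ x ∈ Ioc (0 : ℝ) 1, ∀ ν ∈ Icc (0 : ℝ) 1, ∀ Y, ∀ ε > 0, ∃ Y',
      I Y ν x ≤ x * I Y' ν 1 + ε)
    (hsa : ∀ l s t : ℝ, 0 < l → 0 < s → 0 < t → s + t ≤ 1 → (s + t) * l ≤ 1 →
      ∀ Y, ∀ ε > 0, ∃ Y', I Y (s * l) s + I Y (t * l) t ≤ I Y' ((s + t) * l) (s + t) + ε)
    {l C : ℝ} (hl : l ∈ Icc (0 : ℝ) 1) (hC : ∀ Y, Kf r (fun ν => I Y ν 1) l ≤ C)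
    {x₀ : ℝ} (hx0 : 0 < x₀) (hx1 : x₀ ≤ 1) (X : ℕ) :
    ∫ x in x₀..1, (1 / x * ∫ ν in (0 : ℝ)..1, ν / (x * r + ν) ^ 2 * I X ν x) ≤ C := by
  have hone : (1 : ℝ) ∈ Ioc (0 : ℝ) 1 := ⟨one_pos, le_rfl⟩
  set S : Set (ℝ × ℝ) := Ioc (0 : ℝ) 1 ×ˢ Icc (0 : ℝ) 1 with hS
  have hSm : MeasurableSet S := measurableSet_Ioc.prod measurableSet_Icc
  -- the measurable extension, variables `(x, ν)`
  set F : ℕ → ℝ × ℝ → ℝ≥0∞ := fun Y => S.indicator fun p => ENNReal.ofReal (I Y p.2 p.1) with hF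
  have hFm : ∀ Y, Measurable (F Y) := by
    intro Y
    have h1 : ContinuousOn (fun p : ℝ × ℝ => ENNReal.ofReal (I Y p.2 p.1)) S :=
      ENNReal.continuous_ofReal.comp_continuousOn (hc Y)
    classical
    have h2 := ContinuousOn.measurable_piecewise (g := fun _ : ℝ × ℝ => (0 : ℝ≥0∞)) h1
      continuousOn_const hSm
    have h3 : F Y = S.piecewise (fun p : ℝ × ℝ => ENNReal.ofReal (I Y p.2 p.1)) fun _ => 0 := by
      funext p
      by_cases hp : p ∈ S
      · simp only [hF]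
        rw [indicator_of_mem hp, piecewise_eq_of_mem _ _ _ hp]
      · simp only [hF]
        rw [indicator_of_notMem hp, piecewise_eq_of_notMem _ _ _ hp]
    rw [h3]
    exact h2
  have hFin : ∀ {x ν : ℝ}, x ∈ Ioc (0 : ℝ) 1 → ν ∈ Icc (0 : ℝ) 1 → ∀ Y,
      F Y (x, ν) = ENNReal.ofReal (I Y ν x) := by
    intro x ν hx hν Y
    simp only [hF]
    rw [indicator_of_mem (show (x, ν) ∈ S from ⟨hx, hν⟩)]
  have hFmono : ∀ p, Monotone fun Y => F Y p := by
    intro p Y Y' hYY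
    by_cases hp : p ∈ S
    · simp only [hF]
      rw [indicator_of_mem hp, indicator_of_mem hp]
      exact ENNReal.ofReal_le_ofReal (hm p.1 hp.1 p.2 hp.2 hYY)
    · simp only [hF]
      rw [indicator_of_notMem hp, indicator_of_notMem hp]
  set G : ℝ → ℝ → ℝ≥0∞ := fun ν x => ⨆ Y, F Y (x, ν) with hG
  have hGm : Measurable (Function.uncurry G) := by
    have : Function.uncurry G = fun p : ℝ × ℝ => ⨆ Y, F Y (p.2, p.1) := by
      funext p
      simp only [hG, Function.uncurry]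
    rw [this]
    exact Measurable.iSup fun Y => (hFm Y).comp (measurable_snd.prodMk measurable_fst)
  have hGdp : ∀ x ∈ Ioc (0 : ℝ) 1, ∀ ν ∈ Icc (0 : ℝ) 1, G ν x ≤ ENNReal.ofReal x * G ν 1 := by
    intro x hx ν hν
    simp only [hG]
    refine iSup_le fun Y => ?_
    rw [hFin hx hν]
    refine ENNReal.le_of_forall_pos_le_add fun ε hε _ => ?_
    obtain ⟨Y', hY'⟩ := hdp x hx ν hν Y ε (by exact_mod_cast hε)
    have h2 : 0 ≤ I Y' ν 1 := h0 Y' 1 hone ν hν
    calc ENNReal.ofReal (I Y ν x) ≤ ENNReal.ofReal (x * I Y' ν 1 + ε) :=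
          ENNReal.ofReal_le_ofReal hY'
      _ = ENNReal.ofReal x * ENNReal.ofReal (I Y' ν 1) + ε := by
          rw [ENNReal.ofReal_add (mul_nonneg hx.1.le h2) (NNReal.coe_nonneg ε), ENNReal.ofReal_mul hx.1.le,
            ENNReal.ofReal_coe_nnreal]
      _ ≤ _ := by
          gcongr
          rw [← hFin hone hν Y']
          exact le_iSup (fun Y => F Y (1, ν)) Y'
  have hGsa : ∀ l s t : ℝ, 0 < l → 0 < s → 0 < t → s + t ≤ 1 → (s + t) * l ≤ 1 →
      G (s * l) s + G (t * l) t ≤ G ((s + t) * l) (s + t) := by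
    intro l s t hl hs ht hst hstl
    have hsI : s ∈ Ioc (0 : ℝ) 1 := ⟨hs, by linarith⟩
    have htI : t ∈ Ioc (0 : ℝ) 1 := ⟨ht, by linarith⟩
    have hstI : s + t ∈ Ioc (0 : ℝ) 1 := ⟨by linarith, hst⟩
    have hslI : s * l ∈ Icc (0 : ℝ) 1 := ⟨by positivity, by nlinarith⟩
    have htlI : t * l ∈ Icc (0 : ℝ) 1 := ⟨by positivity, by nlinarith⟩
    have hstlI : (s + t) * l ∈ Icc (0 : ℝ) 1 := ⟨by positivity, hstl⟩
    simp only [hG]
    rw [ENNReal.iSup_add_iSup_of_monotone (hFmono _) (hFmono _)]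
    refine iSup_le fun Y => ?_
    rw [hFin hsI hslI, hFin htI htlI]
    refine ENNReal.le_of_forall_pos_le_add fun ε hε _ => ?_
    obtain ⟨Y', hY'⟩ := hsa l s t hl hs ht hst hstl Y ε (by exact_mod_cast hε)
    have h2 : 0 ≤ I Y' ((s + t) * l) (s + t) := h0 Y' _ hstI _ hstlI
    rw [← ENNReal.ofReal_add (h0 Y _ hsI _ hslI) (h0 Y _ htI _ htlI)]
    calc ENNReal.ofReal (I Y (s * l) s + I Y (t * l) t)
        ≤ ENNReal.ofReal (I Y' ((s + t) * l) (s + t) + ε) := ENNReal.ofReal_le_ofReal hY'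
      _ = ENNReal.ofReal (I Y' ((s + t) * l) (s + t)) + ε := by
          rw [ENNReal.ofReal_add h2 (NNReal.coe_nonneg ε), ENNReal.ofReal_coe_nnreal]
      _ ≤ _ := by
          gcongr
          rw [← hFin hstI hstlI Y']
          exact le_iSup (fun Y => F Y (s + t, (s + t) * l)) Y'
  have key := path_bound hr hl.1 hl.2 hx0 hx1 hGm hGdp hGsa
  -- continuity of the slice at `x = 1`
  have hJc : ∀ Y, ContinuousOn (fun ν => I Y ν 1) (Icc 0 1) := fun Y =>
    (hc Y).comp (f := fun ν : ℝ => ((1 : ℝ), ν)) (by fun_prop) fun ν hν => ⟨hone, hν⟩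
  have hJ0 : ∀ Y, ∀ ν ∈ Icc (0 : ℝ) 1, 0 ≤ I Y ν 1 := fun Y => h0 Y 1 hone
  -- right side
  have hR : ∀ (w : ℝ → ℝ) (a b : ℝ), 0 ≤ a → a ≤ b → b ≤ 1 → Measurable w →
      ContinuousOn w (Icc a b) → (∀ x ∈ Icc a b, 0 ≤ w x) →
      ∫⁻ ν in Ioo a b, ENNReal.ofReal (w ν) * G ν 1 =
        ⨆ Y, ENNReal.ofReal (∫ ν in a..b, w ν * I Y ν 1) := by
    intro w a b ha hab hb hwm hwc hw0
    have hsub : Icc a b ⊆ Icc 0 1 := Icc_subset_Icc ha hb
    have e1 : ∀ Y, ENNReal.ofReal (∫ ν in a..b, w ν * I Y ν 1) =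
        ∫⁻ ν in Ioo a b, ENNReal.ofReal (w ν) * F Y (1, ν) := by
      intro Y
      rw [← lint_eq (f := fun ν => w ν * I Y ν 1) hab (hwc.mul ((hJc Y).mono hsub))
        fun x hx => mul_nonneg (hw0 x hx) (hJ0 Y x (hsub hx))]
      refine setLIntegral_congr_fun measurableSet_Ioo fun ν hν => ?_
      have hν' := Ioo_subset_Icc_self hν
      rw [hFin hone (hsub hν'), ← ENNReal.ofReal_mul (hw0 ν hν')]
    simp only [e1]
    rw [← lintegral_iSup]
    · refine lintegral_congr fun ν => ?_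
      rw [← ENNReal.mul_iSup]
    · intro Y
      exact Measurable.mul (by fun_prop) ((hFm Y).comp (measurable_const.prodMk measurable_id))
    · intro Y Y' hYY ν
      exact mul_le_mul_right (hFmono (1, ν) hYY) _
  have hmonoR : ∀ (w : ℝ → ℝ) (a b : ℝ), 0 ≤ a → a ≤ b → b ≤ 1 →
      ContinuousOn w (Icc a b) → (∀ x ∈ Icc a b, 0 ≤ w x) →
      Monotone fun Y => ENNReal.ofReal (∫ ν in a..b, w ν * I Y ν 1) := by
    intro w a b ha hab hb hwc hw0 Y Y' hYY
    have hsub : Icc a b ⊆ Icc 0 1 := Icc_subset_Icc ha hb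
    apply ENNReal.ofReal_le_ofReal
    refine intervalIntegral.integral_mono_on hab (ii_Icc hab (hwc.mul ((hJc Y).mono hsub)))
      (ii_Icc hab (hwc.mul ((hJc Y').mono hsub))) fun ν hν => ?_
    exact mul_le_mul_of_nonneg_left (hm 1 hone ν (hsub hν) hYY) (hw0 ν hν)
  have hRHS : (∫⁻ l' in Ioo 0 l, ENNReal.ofReal (l' / (r + l') ^ 2) * G l' 1) +
      ENNReal.ofReal (l / (r + l)) * G l 1 +
      ∫⁻ ν in Ioo l 1, ENNReal.ofReal (1 / (r + ν)) * G ν 1 ≤ ENNReal.ofReal C := by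
    have hl0 := hl.1
    have m2 := hmonoR (fun ν => ν / (r + ν) ^ 2) 0 l le_rfl hl.1 hl.2
      (cont_w2 hr fun x hx => hx.1) (fun x hx => by have := hx.1; positivity)
    have m1 := hmonoR (fun ν => 1 / (r + ν)) l 1 hl.1 hl.2 le_rfl
      (cont_w1 hr fun x hx => hl.1.trans hx.1) (fun x hx => by have := hl.1.trans hx.1; positivity)
    have m3 : Monotone fun Y => ENNReal.ofReal (l / (r + l)) * F Y (1, l) :=
      fun Y Y' hYY => mul_le_mul_right (hFmono (1, l) hYY) _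
    rw [hR (fun ν => ν / (r + ν) ^ 2) 0 l le_rfl hl.1 hl.2 (by fun_prop)
        (cont_w2 hr fun x hx => hx.1) (fun x hx => by have := hx.1; positivity),
      hR (fun ν => 1 / (r + ν)) l 1 hl.1 hl.2 le_rfl (by fun_prop)
        (cont_w1 hr fun x hx => hl.1.trans hx.1)
        (fun x hx => by have := hl.1.trans hx.1; positivity)]
    simp only [hG]
    rw [ENNReal.mul_iSup, ENNReal.iSup_add_iSup_of_monotone m2 m3,
      ENNReal.iSup_add_iSup_of_monotone (m2.add m3) m1]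
    refine iSup_le fun Y => ?_
    refine le_trans (le_of_eq ?_) (ENNReal.ofReal_le_ofReal (hC Y))
    rw [hFin hone hl, ← ENNReal.ofReal_mul (by positivity)]
    have p1 : 0 ≤ ∫ ν in (0 : ℝ)..l, ν / (r + ν) ^ 2 * I Y ν 1 := by
      refine intervalIntegral.integral_nonneg hl.1 fun ν hν => ?_
      have h1 := hJ0 Y ν ⟨hν.1, hν.2.trans hl.2⟩
      have := hν.1
      positivity
    have p2 : 0 ≤ l / (r + l) * I Y l 1 := by
      have h1 := hJ0 Y l hl
      positivity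
    have p3 : 0 ≤ ∫ ν in l..1, 1 / (r + ν) * I Y ν 1 := by
      refine intervalIntegral.integral_nonneg hl.2 fun ν hν => ?_
      have h1 := hJ0 Y ν ⟨hl.1.trans hν.1, hν.2⟩
      have := hl.1.trans hν.1
      positivity
    rw [← ENNReal.ofReal_add p1 p2, ← ENNReal.ofReal_add (add_nonneg p1 p2) p3]
    rfl
  -- left side
  have hC0 : 0 ≤ C := (Kf_nonneg hr (hJ0 0) hl).trans (hC 0)
  have hcX : ContinuousOn (fun p : ℝ × ℝ => p.2 / (p.1 * r + p.2) ^ 2 * I X p.2 p.1)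
      (Ioc (0 : ℝ) 1 ×ˢ Icc (0 : ℝ) 1) := by
    refine ContinuousOn.mul (ContinuousOn.div (by fun_prop) (by fun_prop) ?_) (hc X)
    rintro ⟨x, ν⟩ ⟨hx, hν⟩
    have h1 := hx.1
    have h2 := hν.1
    simp only
    positivity
  have hinner : ContinuousOn (fun x => ∫ ν in (0 : ℝ)..1, ν / (x * r + ν) ^ 2 * I X ν x)
      (Icc x₀ 1) := by
    have h1 : ContinuousOn (fun p : ℝ × ℝ => p.2 / (p.1 * r + p.2) ^ 2 * I X p.2 p.1)
        (Icc x₀ 1 ×ˢ Icc (0 : ℝ) 1) := hcX.mono (by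
      rintro ⟨x, ν⟩ ⟨hx, hν⟩
      exact ⟨⟨hx0.trans_le hx.1, hx.2⟩, hν⟩)
    obtain ⟨B, hB⟩ := (isCompact_Icc.prod isCompact_Icc).exists_bound_of_continuousOn h1
    intro x hx
    refine intervalIntegral.continuousWithinAt_of_dominated_interval (bound := fun _ => B) ?_ ?_
      intervalIntegrable_const ?_
    · filter_upwards [self_mem_nhdsWithin] with y hy
      rw [uIoc_of_le zero_le_one]
      refine ContinuousOn.aestronglyMeasurable ?_ measurableSet_Ioc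
      exact h1.comp (f := fun ν : ℝ => (y, ν)) (by fun_prop) fun ν hν => ⟨hy, Ioc_subset_Icc_self hν⟩
    · filter_upwards [self_mem_nhdsWithin] with y hy
      refine Eventually.of_forall fun ν hν => ?_
      rw [uIoc_of_le zero_le_one] at hν
      exact hB (y, ν) ⟨hy, Ioc_subset_Icc_self hν⟩
    · refine Eventually.of_forall fun ν hν => ?_
      rw [uIoc_of_le zero_le_one] at hν
      exact (h1.comp (f := fun y : ℝ => (y, ν)) (by fun_prop)
        fun y hy => ⟨hy, Ioc_subset_Icc_self hν⟩) x hx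
  have houter : ContinuousOn (fun x => 1 / x * ∫ ν in (0 : ℝ)..1, ν / (x * r + ν) ^ 2 * I X ν x)
      (Icc x₀ 1) := by
    refine ContinuousOn.mul (continuousOn_const.div continuousOn_id fun x hx => ?_) hinner
    exact (hx0.trans_le hx.1).ne'
  have hinn0 : ∀ x ∈ Icc x₀ 1, 0 ≤ ∫ ν in (0 : ℝ)..1, ν / (x * r + ν) ^ 2 * I X ν x := by
    intro x hx
    have hx' := hx0.trans_le hx.1
    refine intervalIntegral.integral_nonneg zero_le_one fun ν hν => ?_
    have h1 := h0 X x ⟨hx', hx.2⟩ ν hν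
    have h2 := hν.1
    positivity
  have hLHS : ENNReal.ofReal
      (∫ x in x₀..1, (1 / x * ∫ ν in (0 : ℝ)..1, ν / (x * r + ν) ^ 2 * I X ν x)) ≤
      ∫⁻ x in Ioo x₀ 1, ∫⁻ ν in Ioo 0 1, ENNReal.ofReal (ν / (x * r + ν) ^ 2 / x) * G ν x := by
    rw [← lint_eq hx1 houter fun x hx => by
      have := hinn0 x hx
      have := hx0.trans_le hx.1
      positivity]
    refine setLIntegral_mono' measurableSet_Ioo fun x hx => ?_
    have hx' := hx0.trans hx.1
    have hxI : x ∈ Ioc (0 : ℝ) 1 := ⟨hx', hx.2.le⟩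
    rw [← intervalIntegral.integral_const_mul, ← lint_eq zero_le_one]
    · refine setLIntegral_mono' measurableSet_Ioo fun ν hν => ?_
      have hν' := Ioo_subset_Icc_self hν
      have h2 := hν'.1
      have h3 : 1 / x * (ν / (x * r + ν) ^ 2 * I X ν x) = ν / (x * r + ν) ^ 2 / x * I X ν x := by
        ring
      rw [h3, ENNReal.ofReal_mul (by positivity)]
      gcongr
      rw [← hFin hxI hν' X]
      exact le_iSup (fun Y => F Y (x, ν)) X
    · refine continuousOn_const.mul ?_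
      exact hcX.comp (f := fun ν : ℝ => (x, ν)) (by fun_prop) fun ν hν => ⟨hxI, hν⟩
    · intro ν hν
      have h1 := h0 X x hxI ν hν
      have h2 := hν.1
      positivity
  have hfin := (hLHS.trans key).trans hRHS
  exact (ENNReal.ofReal_le_ofReal_iff hC0).1 hfin

end

end Vale.Agent.P369Q
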