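import Vale.Agent.P369.H468.Super

/-!
P369 (helper468): the path integral of the loss semigroup is bounded by one-dimensional integrals
at the end point (data processing above `l₀`, superadditivity below).
-/

namespace Vale.Agent.P369Q

open MeasureTheory Set
open scoped ENNReal

theorem lint_of_deriv {F f : ℝ → ℝ} {a b : ℝ} (hab : a ≤ b)
    (hF : ∀ x ∈ Icc a b, HasDerivAt F (f x) x) (hf : ContinuousOn f (Icc a b))
    (h0 : ∀ x ∈ Icc a b, 0 ≤ f x) :
    ∫⁻ x in Ioo a b, ENNReal.ofReal (f x) = ENNReal.ofReal (F b - F a) := by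
  have h1 : ∫ x in a..b, f x = F b - F a := by
    apply intervalIntegral.integral_eq_sub_of_hasDerivAt
    · rwa [uIcc_of_le hab]
    · apply ContinuousOn.intervalIntegrable
      rwa [uIcc_of_le hab]
  rw [← h1, intervalIntegral.integral_of_le hab, integral_Ioc_eq_integral_Ioo,
    ofReal_integral_eq_lintegral_ofReal]
  · exact (ContinuousOn.integrableOn_Icc hf).mono_set Ioo_subset_Icc_self
  · rw [Filter.EventuallyLE, ae_restrict_iff' measurableSet_Ioo]
    exact Filter.Eventually.of_forall fun x hx => h0 x (Ioo_subset_Icc_self hx)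

theorem lint_scale {f : ℝ → ℝ≥0∞} (hf : Measurable f) {x a : ℝ} (hx : 0 < x) :
    ∫⁻ ν in Ioo 0 a, f ν = ENNReal.ofReal x * ∫⁻ l in Ioo 0 (a / x), f (x * l) := by
  rw [← lintegral_indicator measurableSet_Ioo, ← lintegral_indicator measurableSet_Ioo]
  have h1 : (volume : Measure ℝ) = ENNReal.ofReal |x| • Measure.map (x * ·) volume :=
    (Real.smul_map_volume_mul_left hx.ne').symm
  have h2 : ∫⁻ ν, (Ioo 0 a).indicator f ν =
      ENNReal.ofReal x * ∫⁻ l, (Ioo 0 a).indicator f (x * l) := by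
    conv_lhs => rw [h1]
    rw [lintegral_smul_measure, abs_of_pos hx, smul_eq_mul,
      lintegral_map (hf.indicator measurableSet_Ioo) (measurable_const_mul x)]
  rw [h2]
  congr 2
  funext l
  by_cases hl : l ∈ Ioo 0 (a / x)
  · have : x * l ∈ Ioo 0 a := ⟨mul_pos hx hl.1, by
      have := hl.2
      rw [lt_div_iff₀ hx] at this
      linarith [mul_comm x l]⟩
    rw [indicator_of_mem this, indicator_of_mem hl]
  · have : x * l ∉ Ioo 0 a := by
      intro h
      apply hl
      refine ⟨pos_of_mul_pos_right h.1 hx.le, ?_⟩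
      rw [lt_div_iff₀ hx]
      linarith [h.2, mul_comm x l]
    rw [indicator_of_notMem this, indicator_of_notMem hl]

/-- the part above `l₀` : data processing -/
theorem path_high {I : ℝ → ℝ → ℝ≥0∞} {r l₀ x₀ : ℝ} (hr : 0 < r) (hl0 : 0 ≤ l₀)
    (hx0 : 0 < x₀) (hx1 : x₀ ≤ 1) (hI : Measurable (Function.uncurry I))
    (hdp : ∀ x ∈ Ioc (0 : ℝ) 1, ∀ ν ∈ Icc (0 : ℝ) 1, I ν x ≤ ENNReal.ofReal x * I ν 1) :
    ∫⁻ x in Ioo x₀ 1, ∫⁻ ν in Ioo l₀ 1, ENNReal.ofReal (ν / (x * r + ν) ^ 2 / x) * I ν x ≤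
      ∫⁻ ν in Ioo l₀ 1, ENNReal.ofReal (1 / (r + ν)) * I ν 1 := by
  have hI1 : Measurable fun ν => I ν 1 := hI.comp (measurable_id.prodMk measurable_const)
  calc ∫⁻ x in Ioo x₀ 1, ∫⁻ ν in Ioo l₀ 1, ENNReal.ofReal (ν / (x * r + ν) ^ 2 / x) * I ν x
      ≤ ∫⁻ x in Ioo x₀ 1, ∫⁻ ν in Ioo l₀ 1, ENNReal.ofReal (ν / (x * r + ν) ^ 2) * I ν 1 := by
        refine setLIntegral_mono' measurableSet_Ioo fun x hx => ?_
        refine setLIntegral_mono' measurableSet_Ioo fun ν hν => ?_
        have hx' : 0 < x := hx0.trans hx.1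
        have hν0 : 0 < ν := hl0.trans_lt hν.1
        refine (mul_le_mul_right (hdp x ⟨hx', hx.2.le⟩ ν ⟨hν0.le, hν.2.le⟩) _).trans ?_
        rw [← mul_assoc, ← ENNReal.ofReal_mul (by positivity)]
        apply le_of_eq
        congr 2
        field_simp
    _ = ∫⁻ ν in Ioo l₀ 1, ∫⁻ x in Ioo x₀ 1, ENNReal.ofReal (ν / (x * r + ν) ^ 2) * I ν 1 := by
        rw [lintegral_lintegral_swap]
        apply Measurable.aemeasurable
        unfold Function.uncurry
        simp only
        exact Measurable.mul (by fun_prop) (hI1.comp measurable_snd)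
    _ ≤ ∫⁻ ν in Ioo l₀ 1, ENNReal.ofReal (1 / (r + ν)) * I ν 1 := by
        refine setLIntegral_mono' measurableSet_Ioo fun ν hν => ?_
        have hν0 : 0 < ν := hl0.trans_lt hν.1
        rw [lintegral_mul_const _ (by fun_prop)]
        gcongr
        have h1 : ∀ x ∈ Icc x₀ 1, HasDerivAt (fun x => x / (x * r + ν)) (ν / (x * r + ν) ^ 2) x := by
          intro x hx
          have hx' : 0 < x := hx0.trans_le hx.1
          have h2 : HasDerivAt (fun x : ℝ => x * r + ν) r x := by
            simpa using ((hasDerivAt_id x).mul_const r).add_const ν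
          have h3 : x * r + ν ≠ 0 := by positivity
          refine ((hasDerivAt_id x).div h2 h3).congr_deriv ?_
          simp only [id]
          congr 1
          ring
        rw [lint_of_deriv hx1 h1]
        · apply ENNReal.ofReal_le_ofReal
          have h2 : 0 ≤ x₀ / (x₀ * r + ν) := by positivity
          simp only [one_mul]
          linarith
        · intro x hx
          have hx' : 0 < x := hx0.trans_le hx.1
          have h3 : (x * r + ν) ^ 2 ≠ 0 := by positivity
          have h4 : ContinuousAt (fun x : ℝ => ν / (x * r + ν) ^ 2) x :=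
            ContinuousAt.div (g := fun x : ℝ => (x * r + ν) ^ 2) continuousAt_const
              (by fun_prop) h3
          exact h4.continuousWithinAt
        · intro x hx
          have hx' : 0 < x := hx0.trans_le hx.1
          positivity

/-- the part below `l₀` : superadditivity -/
theorem path_low {I : ℝ → ℝ → ℝ≥0∞} {r l₀ x₀ : ℝ} (hr : 0 < r) (hl0 : 0 ≤ l₀) (hl1 : l₀ ≤ 1)
    (hx0 : 0 < x₀) (hI : Measurable (Function.uncurry I))
    (hdp : ∀ x ∈ Ioc (0 : ℝ) 1, ∀ ν ∈ Icc (0 : ℝ) 1, I ν x ≤ ENNReal.ofReal x * I ν 1)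
    (hsa : ∀ l s t : ℝ, 0 < l → 0 < s → 0 < t → s + t ≤ 1 → (s + t) * l ≤ 1 →
      I (s * l) s + I (t * l) t ≤ I ((s + t) * l) (s + t)) :
    ∫⁻ x in Ioo x₀ 1, ∫⁻ ν in Ioo 0 l₀, ENNReal.ofReal (ν / (x * r + ν) ^ 2 / x) * I ν x ≤
      (∫⁻ l in Ioo 0 l₀, ENNReal.ofReal (l / (r + l) ^ 2) * I l 1) +
        ENNReal.ofReal (l₀ / (r + l₀)) * I l₀ 1 := by
  rcases hl0.eq_or_lt with h0 | h0
  · rw [← h0]
    simp
  have hI1 : Measurable fun ν => I ν 1 := hI.comp (measurable_id.prodMk measurable_const)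
  rcases le_or_gt 1 x₀ with hx1 | hx1
  · rw [Ioo_eq_empty (not_lt.2 hx1)]
    simp
  set L := l₀ / x₀ with hL
  have hL0 : l₀ ≤ L := by
    rw [hL, le_div_iff₀ hx0]
    nlinarith
  -- the rescaled integrand
  set G : ℝ → ℝ → ℝ≥0∞ := fun x l => ENNReal.ofReal (l / (r + l) ^ 2) *
    ((Iio (l₀ / l)).indicator (fun x => ENNReal.ofReal (1 / x) * I (x * l) x) x) with hG
  have hGm : Measurable (Function.uncurry G) := by
    have h1 : Function.uncurry G = fun p : ℝ × ℝ => ENNReal.ofReal (p.2 / (r + p.2) ^ 2) *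
        ({p : ℝ × ℝ | p.1 < l₀ / p.2}.indicator
          (fun p => ENNReal.ofReal (1 / p.1) * I (p.1 * p.2) p.1) p) := by
      funext p
      simp only [hG, Function.uncurry, indicator, mem_Iio, mem_ofPred_eq]
    rw [h1]
    refine Measurable.mul (by fun_prop) (Measurable.indicator ?_ ?_)
    · refine Measurable.mul (by fun_prop) ?_
      exact hI.comp ((measurable_fst.mul measurable_snd).prodMk measurable_fst)
    · exact measurableSet_lt measurable_fst (by fun_prop)
  have e1 : ∀ x ∈ Ioo x₀ 1,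
      ∫⁻ ν in Ioo 0 l₀, ENNReal.ofReal (ν / (x * r + ν) ^ 2 / x) * I ν x ≤
      ∫⁻ l in Ioo 0 L, G x l := by
    intro x hx
    have hx' : 0 < x := hx0.trans hx.1
    rw [lint_scale (f := fun ν => ENNReal.ofReal (ν / (x * r + ν) ^ 2 / x) * I ν x) (x := x) ?_ hx']
    swap
    · refine Measurable.mul (by fun_prop) ?_
      exact hI.comp (measurable_id.prodMk measurable_const)
    rw [← lintegral_const_mul]
    swap
    · refine Measurable.mul (by fun_prop) ?_
      exact hI.comp ((measurable_const.mul measurable_id).prodMk measurable_const)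
    have h2 : ∀ l ∈ Ioo 0 (l₀ / x), ENNReal.ofReal x *
        (ENNReal.ofReal (x * l / (x * r + x * l) ^ 2 / x) * I (x * l) x) = G x l := by
      intro l hl
      have hl0' : 0 < l := hl.1
      have h3 : x < l₀ / l := by
        rw [lt_div_iff₀ hl0']
        have := hl.2
        rw [lt_div_iff₀ hx'] at this
        linarith [mul_comm x l]
      simp only [hG]
      rw [indicator_of_mem (show x ∈ Iio (l₀ / l) from h3), ← mul_assoc, ← mul_assoc,
        ← ENNReal.ofReal_mul hx'.le, ← ENNReal.ofReal_mul (by positivity)]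
      congr 2
      field_simp
    rw [setLIntegral_congr_fun measurableSet_Ioo h2]
    apply lintegral_mono_set
    apply Ioo_subset_Ioo_right
    rw [hL]
    gcongr
    exact hx.1.le
  have e2 : ∀ l ∈ Ioo 0 L, ∫⁻ x in Ioo x₀ 1, G x l ≤
      ENNReal.ofReal (l / (r + l) ^ 2) * I (min 1 (l₀ / l) * l) (min 1 (l₀ / l)) := by
    intro l hl
    have hl' : 0 < l := hl.1
    simp only [hG]
    rw [lintegral_const_mul]
    swap
    · refine Measurable.indicator ?_ measurableSet_Iio
      refine Measurable.mul (by fun_prop) ?_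
      exact hI.comp ((measurable_id.mul measurable_const).prodMk measurable_id)
    gcongr
    rw [lintegral_indicator measurableSet_Iio, Measure.restrict_restrict measurableSet_Iio]
    have h3 : Iio (l₀ / l) ∩ Ioo x₀ 1 = Ioo x₀ (min 1 (l₀ / l)) := by
      ext x
      simp only [mem_inter_iff, mem_Iio, mem_Ioo, lt_min_iff]
      tauto
    rw [h3]
    refine superadd_lint (q := fun x => I (x * l) x) hx0 ?_ ?_
    · exact hI.comp ((measurable_id.mul measurable_const).prodMk measurable_id)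
    · intro s t hs ht hst
      refine hsa l s t hl' hs ht (hst.trans (min_le_left _ _)) ?_
      have h4 : (s + t) * l ≤ (l₀ / l) * l :=
        mul_le_mul_of_nonneg_right (hst.trans (min_le_right _ _)) hl'.le
      rw [div_mul_cancel₀ _ hl'.ne'] at h4
      exact h4.trans hl1
  calc ∫⁻ x in Ioo x₀ 1, ∫⁻ ν in Ioo 0 l₀, ENNReal.ofReal (ν / (x * r + ν) ^ 2 / x) * I ν x
      ≤ ∫⁻ x in Ioo x₀ 1, ∫⁻ l in Ioo 0 L, G x l := setLIntegral_mono' measurableSet_Ioo e1
    _ = ∫⁻ l in Ioo 0 L, ∫⁻ x in Ioo x₀ 1, G x l := lintegral_lintegral_swap hGm.aemeasurable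
    _ ≤ ∫⁻ l in Ioo 0 L, ENNReal.ofReal (l / (r + l) ^ 2) *
          I (min 1 (l₀ / l) * l) (min 1 (l₀ / l)) := setLIntegral_mono' measurableSet_Ioo e2
    _ ≤ ∫⁻ l in Ioo 0 l₀ ∪ Ico l₀ L, ENNReal.ofReal (l / (r + l) ^ 2) *
          I (min 1 (l₀ / l) * l) (min 1 (l₀ / l)) := by
        apply lintegral_mono_set
        rw [Ioo_union_Ico_eq_Ioo h0 hL0]
    _ ≤ (∫⁻ l in Ioo 0 l₀, ENNReal.ofReal (l / (r + l) ^ 2) *
          I (min 1 (l₀ / l) * l) (min 1 (l₀ / l))) + ∫⁻ l in Ico l₀ L,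
          ENNReal.ofReal (l / (r + l) ^ 2) * I (min 1 (l₀ / l) * l) (min 1 (l₀ / l)) :=
        lintegral_union_le _ _ _
    _ ≤ (∫⁻ l in Ioo 0 l₀, ENNReal.ofReal (l / (r + l) ^ 2) * I l 1) +
        ENNReal.ofReal (l₀ / (r + l₀)) * I l₀ 1 := by
        refine add_le_add ?_ ?_
        · refine setLIntegral_mono' measurableSet_Ioo fun l hl => ?_
          have h3 : 1 ≤ l₀ / l := by
            rw [le_div_iff₀ hl.1]
            linarith [hl.2]
          rw [min_eq_left h3, one_mul]
        · have e3 : ∀ l ∈ Ico l₀ L, ENNReal.ofReal (l / (r + l) ^ 2) *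
              I (min 1 (l₀ / l) * l) (min 1 (l₀ / l)) ≤
              ENNReal.ofReal (l₀ / (r + l) ^ 2) * I l₀ 1 := by
            intro l hl
            have hl' : 0 < l := h0.trans_le hl.1
            have h3 : l₀ / l ≤ 1 := by
              rw [div_le_iff₀ hl']
              linarith [hl.1]
            rw [min_eq_right h3, div_mul_cancel₀ _ hl'.ne']
            refine (mul_le_mul_right (hdp (l₀ / l) ⟨by positivity, h3⟩ l₀ ⟨hl0, hl1⟩) _).trans ?_
            rw [← mul_assoc, ← ENNReal.ofReal_mul (by positivity)]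
            apply le_of_eq
            congr 2
            field_simp
          refine (setLIntegral_mono' measurableSet_Ico e3).trans ?_
          rw [lintegral_mul_const _ (by fun_prop)]
          gcongr
          rw [setLIntegral_congr (Ico_ae_eq_Icc' (by simp) |>.trans Ioo_ae_eq_Icc.symm)]
          have h1 : ∀ x ∈ Icc l₀ L, HasDerivAt (fun x => -(l₀ / (r + x))) (l₀ / (r + x) ^ 2) x := by
            intro x hx
            have hx' : 0 < x := h0.trans_le hx.1
            have h3 : r + x ≠ 0 := by positivity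
            have h2 : HasDerivAt (fun x : ℝ => r + x) 1 x := (hasDerivAt_id x).const_add r
            refine (((hasDerivAt_const x l₀).div h2 h3).neg).congr_deriv ?_
            ring
          rw [lint_of_deriv hL0 h1]
          · apply ENNReal.ofReal_le_ofReal
            have h2 : 0 ≤ l₀ / (r + L) := by positivity
            linarith
          · intro x hx
            have hx' : 0 < x := h0.trans_le hx.1
            have h3 : (r + x) ^ 2 ≠ 0 := by positivity
            have h4 : ContinuousAt (fun x : ℝ => l₀ / (r + x) ^ 2) x :=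
              ContinuousAt.div (g := fun x : ℝ => (r + x) ^ 2) continuousAt_const
                (by fun_prop) h3
            exact h4.continuousWithinAt
          · intro x hx
            have hx' : 0 < x := h0.trans_le hx.1
            positivity

/-- the whole path -/
theorem path_bound {I : ℝ → ℝ → ℝ≥0∞} {r l₀ x₀ : ℝ} (hr : 0 < r) (hl0 : 0 ≤ l₀) (hl1 : l₀ ≤ 1)
    (hx0 : 0 < x₀) (hx1 : x₀ ≤ 1) (hI : Measurable (Function.uncurry I))
    (hdp : ∀ x ∈ Ioc (0 : ℝ) 1, ∀ ν ∈ Icc (0 : ℝ) 1, I ν x ≤ ENNReal.ofReal x * I ν 1)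
    (hsa : ∀ l s t : ℝ, 0 < l → 0 < s → 0 < t → s + t ≤ 1 → (s + t) * l ≤ 1 →
      I (s * l) s + I (t * l) t ≤ I ((s + t) * l) (s + t)) :
    ∫⁻ x in Ioo x₀ 1, ∫⁻ ν in Ioo 0 1, ENNReal.ofReal (ν / (x * r + ν) ^ 2 / x) * I ν x ≤
      (∫⁻ l in Ioo 0 l₀, ENNReal.ofReal (l / (r + l) ^ 2) * I l 1) +
        ENNReal.ofReal (l₀ / (r + l₀)) * I l₀ 1 +
        ∫⁻ ν in Ioo l₀ 1, ENNReal.ofReal (1 / (r + ν)) * I ν 1 := by
  have hm : Measurable (Function.uncurry fun x ν : ℝ =>
      ENNReal.ofReal (ν / (x * r + ν) ^ 2 / x) * I ν x) := by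
    unfold Function.uncurry
    refine Measurable.mul (by fun_prop) ?_
    exact hI.comp (measurable_snd.prodMk measurable_fst)
  calc ∫⁻ x in Ioo x₀ 1, ∫⁻ ν in Ioo 0 1, ENNReal.ofReal (ν / (x * r + ν) ^ 2 / x) * I ν x
      ≤ ∫⁻ x in Ioo x₀ 1, ((∫⁻ ν in Ioo 0 l₀, ENNReal.ofReal (ν / (x * r + ν) ^ 2 / x) * I ν x) +
          ∫⁻ ν in Ioo l₀ 1, ENNReal.ofReal (ν / (x * r + ν) ^ 2 / x) * I ν x) := by
        refine lintegral_mono fun x => ?_
        have h1 : ∫⁻ ν in Ioo l₀ 1, ENNReal.ofReal (ν / (x * r + ν) ^ 2 / x) * I ν x =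
            ∫⁻ ν in Ico l₀ 1, ENNReal.ofReal (ν / (x * r + ν) ^ 2 / x) * I ν x :=
          setLIntegral_congr Ioo_ae_eq_Ico
        rw [h1]
        refine le_trans (lintegral_mono_set ?_) (lintegral_union_le _ _ _)
        intro ν hν
        rcases lt_or_ge ν l₀ with h | h
        · exact Or.inl ⟨hν.1, h⟩
        · exact Or.inr ⟨h, hν.2⟩
    _ = (∫⁻ x in Ioo x₀ 1, ∫⁻ ν in Ioo 0 l₀, ENNReal.ofReal (ν / (x * r + ν) ^ 2 / x) * I ν x) +
          ∫⁻ x in Ioo x₀ 1, ∫⁻ ν in Ioo l₀ 1, ENNReal.ofReal (ν / (x * r + ν) ^ 2 / x) * I ν x := by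
        rw [lintegral_add_left]
        exact hm.lintegral_prod_right
    _ ≤ _ := add_le_add (path_low hr hl0 hl1 hx0 hI hdp hsa) (path_high hr hl0 hx0 hx1 hI hdp)

end Vale.Agent.P369Q
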