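import Mathlib

/-!
P369 (helper468): an integral inequality for nonnegative superadditive functions with values in
`[0, ∞]`, without any continuity.
-/

namespace Vale.Agent.P369Q

open MeasureTheory Set
open scoped ENNReal

theorem superadd_half {q : ℝ → ℝ≥0∞} {τ δ : ℝ} (hδ : 0 ≤ δ) (hq : Measurable q)
    (hs : ∀ s t, 0 < s → 0 < t → s + t = τ → q s + q t ≤ q τ) :
    2 * ∫⁻ t in Ioo δ τ, q t ≤ ENNReal.ofReal τ * q τ := by
  have h1 : ∫⁻ t in Ioo δ τ, q t ≤ ∫⁻ t in Ioo 0 τ, q t :=
    lintegral_mono_set (Ioo_subset_Ioo_left hδ)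
  have h2 : ∫⁻ t in Ioo 0 τ, q (τ - t) = ∫⁻ t in Ioo 0 τ, q t := by
    have hmp : MeasurePreserving (fun t : ℝ => τ - t) volume volume :=
      Measure.measurePreserving_sub_left volume τ
    have h3 : (fun t : ℝ => τ - t) ⁻¹' Ioo 0 τ = Ioo 0 τ := by
      ext t
      simp only [mem_preimage, mem_Ioo]
      constructor
      · rintro ⟨h1, h2⟩; constructor <;> linarith
      · rintro ⟨h1, h2⟩; constructor <;> linarith
    have h4 := hmp.setLIntegral_comp_preimage (s := Ioo 0 τ) measurableSet_Ioo hq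
    rw [h3] at h4
    exact h4
  calc 2 * ∫⁻ t in Ioo δ τ, q t ≤ 2 * ∫⁻ t in Ioo 0 τ, q t := by gcongr
    _ = (∫⁻ t in Ioo 0 τ, q t) + ∫⁻ t in Ioo 0 τ, q (τ - t) := by rw [h2, two_mul]
    _ = ∫⁻ t in Ioo 0 τ, (q t + q (τ - t)) := by rw [lintegral_add_left hq]
    _ ≤ ∫⁻ _ in Ioo 0 τ, q τ := by
        refine setLIntegral_mono measurable_const fun t ht => ?_
        exact hs t (τ - t) ht.1 (by linarith [ht.2]) (by ring)
    _ = ENNReal.ofReal τ * q τ := by
        rw [setLIntegral_const, Real.volume_Ioo, sub_zero, mul_comm]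

theorem lint_inv_sq {t T : ℝ} (ht : 0 < t) (hT : t ≤ T) :
    ∫⁻ τ in Ioo t T, ENNReal.ofReal (2 / τ ^ 2) = ENNReal.ofReal (2 / t - 2 / T) := by
  have hT0 : 0 < T := ht.trans_le hT
  have h1 : ∫ τ in t..T, 2 / τ ^ 2 = 2 / t - 2 / T := by
    have h2 : ∀ x ∈ uIcc t T, HasDerivAt (fun x : ℝ => -(2 / x)) (2 / x ^ 2) x := by
      intro x hx
      rw [uIcc_of_le hT] at hx
      have hx0 : x ≠ 0 := (ht.trans_le hx.1).ne'
      have h3 := ((hasDerivAt_inv hx0).const_mul (-2))
      refine (h3.congr_deriv ?_).congr_of_eventuallyEq ?_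
      · field_simp
      · exact Filter.Eventually.of_forall fun y => by
          simp only [div_eq_mul_inv]; ring
    rw [intervalIntegral.integral_eq_sub_of_hasDerivAt h2]
    · ring
    · apply ContinuousOn.intervalIntegrable
      rw [uIcc_of_le hT]
      intro x hx
      have hx0 : x ≠ 0 := (ht.trans_le hx.1).ne'
      exact (continuousAt_const.div (by fun_prop) (by positivity)).continuousWithinAt
  rw [← h1, intervalIntegral.integral_of_le hT, integral_Ioc_eq_integral_Ioo,
    ofReal_integral_eq_lintegral_ofReal]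
  · apply IntegrableOn.mono_set (t := Icc t T) _ Ioo_subset_Icc_self
    apply ContinuousOn.integrableOn_Icc
    intro x hx
    have hx0 : x ≠ 0 := (ht.trans_le hx.1).ne'
    exact (continuousAt_const.div (by fun_prop) (by positivity)).continuousWithinAt
  · refine Filter.Eventually.of_forall fun x => ?_
    positivity

theorem superadd_lint {q : ℝ → ℝ≥0∞} {T δ : ℝ} (hδ : 0 < δ) (hq : Measurable q)
    (hs : ∀ s t, 0 < s → 0 < t → s + t ≤ T → q s + q t ≤ q (s + t)) :
    ∫⁻ t in Ioo δ T, ENNReal.ofReal (1 / t) * q t ≤ q T := by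
  rcases le_or_gt T δ with hT | hT
  · rw [Ioo_eq_empty (not_lt.2 hT)]
    simp
  by_cases hfin : q T = ∞
  · rw [hfin]; exact le_top
  have hT0 : 0 < T := hδ.trans hT
  have hle : ∀ t ∈ Ioo δ T, q t ≤ q T := by
    intro t ht
    have h1 := hs t (T - t) (hδ.trans ht.1) (by linarith [ht.2]) (by linarith)
    rw [show t + (T - t) = T by ring] at h1
    exact le_self_add.trans h1
  set A := ∫⁻ t in Ioo δ T, ENNReal.ofReal (1 / t) * q t with hA
  have hAfin : A ≠ ∞ := by
    have h1 : A ≤ ∫⁻ _ in Ioo δ T, ENNReal.ofReal (1 / δ) * q T := by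
      refine setLIntegral_mono measurable_const fun t ht => ?_
      gcongr
      · exact ht.1.le
      · exact hle t ht
    refine ne_top_of_le_ne_top ?_ h1
    rw [setLIntegral_const, Real.volume_Ioo]
    finiteness
  -- Step 1
  have s1 : ∀ τ ∈ Ioo δ T, ENNReal.ofReal (2 / τ ^ 2) * ∫⁻ t in Ioo δ τ, q t ≤
      ENNReal.ofReal (1 / τ) * q τ := by
    intro τ hτ
    have hτ0 : 0 < τ := hδ.trans hτ.1
    have h1 := superadd_half (q := q) (τ := τ) hδ.le hq (fun s t hs0 ht0 hst => by
      have := hs s t hs0 ht0 (by rw [hst]; exact hτ.2.le)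
      rwa [hst] at this)
    have e1 : ENNReal.ofReal (2 / τ ^ 2) = ENNReal.ofReal (1 / τ ^ 2) * 2 := by
      rw [show (2 : ℝ≥0∞) = ENNReal.ofReal 2 by simp, ← ENNReal.ofReal_mul (by positivity)]
      congr 1
      ring
    rw [e1, mul_assoc]
    refine (mul_le_mul_right h1 _).trans ?_
    rw [← mul_assoc, ← ENNReal.ofReal_mul (by positivity)]
    gcongr
    apply le_of_eq
    field_simp
  -- Step 2
  have s2 : ∫⁻ t in Ioo δ T, ENNReal.ofReal (2 / t - 2 / T) * q t ≤ A := by
    have h1 : ∫⁻ τ in Ioo δ T, (ENNReal.ofReal (2 / τ ^ 2) * ∫⁻ t in Ioo δ τ, q t) ≤ A := by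
      refine setLIntegral_mono (by fun_prop) s1
    refine le_trans (le_of_eq ?_) h1
    have e1 : ∀ τ ∈ Ioo δ T, ENNReal.ofReal (2 / τ ^ 2) * ∫⁻ t in Ioo δ τ, q t =
        ∫⁻ t in Ioo δ T, (Iio τ).indicator (fun t => ENNReal.ofReal (2 / τ ^ 2) * q t) t := by
      intro τ hτ
      rw [lintegral_indicator measurableSet_Iio, Measure.restrict_restrict measurableSet_Iio,
        lintegral_const_mul _ hq]
      congr 3
      ext t
      simp only [mem_inter_iff, mem_Iio, mem_Ioo]
      constructor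
      · rintro ⟨h1, h2⟩; exact ⟨h2, h1, h2.trans hτ.2⟩
      · rintro ⟨h1, h2, h3⟩; exact ⟨h2, h1⟩
    have e2 : ∀ t ∈ Ioo δ T, ENNReal.ofReal (2 / t - 2 / T) * q t =
        ∫⁻ τ in Ioo δ T, (Iio τ).indicator (fun t => ENNReal.ofReal (2 / τ ^ 2) * q t) t := by
      intro t ht
      have e3 : ∀ τ, (Iio τ).indicator (fun t => ENNReal.ofReal (2 / τ ^ 2) * q t) t =
          (Ioi t).indicator (fun τ => ENNReal.ofReal (2 / τ ^ 2) * q t) τ := by
        intro τ
        simp only [indicator, mem_Iio, mem_Ioi]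
      simp only [e3]
      rw [lintegral_indicator measurableSet_Ioi, Measure.restrict_restrict measurableSet_Ioi,
        lintegral_mul_const _ (by fun_prop), ← lint_inv_sq (hδ.trans ht.1) ht.2.le]
      congr 3
      ext τ
      simp only [mem_inter_iff, mem_Ioi, mem_Ioo]
      constructor
      · rintro ⟨h1, h2⟩; exact ⟨h1, ht.1.trans h1, h2⟩
      · rintro ⟨h1, h2, h3⟩; exact ⟨h1, h3⟩
    rw [setLIntegral_congr_fun measurableSet_Ioo e2, setLIntegral_congr_fun measurableSet_Ioo e1]
    rw [lintegral_lintegral_swap]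
    apply Measurable.aemeasurable
    have : (Function.uncurry fun t τ : ℝ =>
        (Iio τ).indicator (fun t => ENNReal.ofReal (2 / τ ^ 2) * q t) t) =
        {p : ℝ × ℝ | p.1 < p.2}.indicator fun p => ENNReal.ofReal (2 / p.2 ^ 2) * q p.1 := by
      funext p
      simp only [Function.uncurry, indicator, mem_Iio, mem_ofPred_eq]
    rw [this]
    exact Measurable.indicator (by fun_prop) (measurableSet_lt measurable_fst measurable_snd)
  -- Step 3
  have s3 : ENNReal.ofReal (2 / T) * ∫⁻ t in Ioo δ T, q t ≤ q T := by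
    have h1 := superadd_half (q := q) (τ := T) hδ.le hq (fun s t hs0 ht0 hst => by
      have := hs s t hs0 ht0 hst.le
      rwa [hst] at this)
    have e1 : ENNReal.ofReal (2 / T) = ENNReal.ofReal (1 / T) * 2 := by
      rw [show (2 : ℝ≥0∞) = ENNReal.ofReal 2 by simp, ← ENNReal.ofReal_mul (by positivity)]
      congr 1
      ring
    rw [e1, mul_assoc]
    refine (mul_le_mul_right h1 _).trans ?_
    rw [← mul_assoc, ← ENNReal.ofReal_mul (by positivity)]
    rw [one_div, inv_mul_cancel₀ hT0.ne', ENNReal.ofReal_one, one_mul]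
  have s4 : A + A = (∫⁻ t in Ioo δ T, ENNReal.ofReal (2 / t - 2 / T) * q t) +
      ENNReal.ofReal (2 / T) * ∫⁻ t in Ioo δ T, q t := by
    rw [← lintegral_const_mul _ hq, hA, ← lintegral_add_left (by fun_prop),
      ← lintegral_add_left (by fun_prop)]
    refine setLIntegral_congr_fun measurableSet_Ioo fun t ht => ?_
    have ht0 : 0 < t := hδ.trans ht.1
    have h1 : 2 / T ≤ 2 / t := by
      gcongr
      exact ht.2.le
    rw [← add_mul, ← add_mul, ← ENNReal.ofReal_add (by positivity) (by positivity),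
      ← ENNReal.ofReal_add (by linarith) (by positivity)]
    congr 2
    ring
  have s5 : A + A ≤ A + q T := by
    rw [s4]
    gcongr
  exact (ENNReal.add_le_add_iff_left hAfin).1 s5

end Vale.Agent.P369Q
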