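import Vale.Agent.P369.H468.Path
import Vale.Agent.P369.Aniso.Scalar

/-!
P369 (helper468): the scalar weight inequality, and the abstract bound for the path integral of
truncated functionals.
-/

namespace Vale.Agent.P369Q

open MeasureTheory Set Filter
open Vale.Agent.P369N (bb cm mul_bb_lt lt_mul_bb bb_pos bb_eq)
open scoped ENNReal

noncomputable section

/-- the bound for the path integral, at the level `l` -/
def Kf (r : ℝ) (J : ℝ → ℝ) (l : ℝ) : ℝ :=
  (∫ ν in (0 : ℝ)..l, ν / (r + ν) ^ 2 * J ν) + l / (r + l) * J l +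
    ∫ ν in l..1, 1 / (r + ν) * J ν

theorem cont_w1 {r : ℝ} (hr : 0 < r) {S : Set ℝ} (hS : ∀ x ∈ S, 0 ≤ x) :
    ContinuousOn (fun ν : ℝ => 1 / (r + ν)) S := by
  refine continuousOn_const.div (by fun_prop) fun x hx => ?_
  have := hS x hx
  positivity

theorem cont_w2 {r : ℝ} (hr : 0 < r) {S : Set ℝ} (hS : ∀ x ∈ S, 0 ≤ x) :
    ContinuousOn (fun ν : ℝ => ν / (r + ν) ^ 2) S := by
  refine continuousOn_id.div (by fun_prop) fun x hx => ?_
  have := hS x hx
  positivity

theorem int_w1 {r a b : ℝ} (hr : 0 < r) (ha : 0 ≤ a) (hab : a ≤ b) :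
    ∫ ν in a..b, 1 / (r + ν) = Real.log (r + b) - Real.log (r + a) := by
  refine intervalIntegral.integral_eq_sub_of_hasDerivAt (f := fun x => Real.log (r + x)) ?_ ?_
  · intro x hx
    rw [uIcc_of_le hab] at hx
    have hx0 := ha.trans hx.1
    exact ((hasDerivAt_id x).const_add r).log (by simp only [id]; positivity)
  · apply ContinuousOn.intervalIntegrable
    rw [uIcc_of_le hab]
    exact cont_w1 hr fun x hx => ha.trans hx.1

theorem int_w2 {r a b : ℝ} (hr : 0 < r) (ha : 0 ≤ a) (hab : a ≤ b) :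
    ∫ ν in a..b, ν / (r + ν) ^ 2 = (Real.log (r + b) + r / (r + b)) -
      (Real.log (r + a) + r / (r + a)) := by
  refine intervalIntegral.integral_eq_sub_of_hasDerivAt
    (f := fun x => Real.log (r + x) + r / (r + x)) ?_ ?_
  · intro x hx
    rw [uIcc_of_le hab] at hx
    have hx0 := ha.trans hx.1
    have h1 : HasDerivAt (fun x : ℝ => r + x) 1 x := (hasDerivAt_id x).const_add r
    have h2 : r + x ≠ 0 := by positivity
    refine ((h1.log h2).add ((hasDerivAt_const x r).div h1 h2)).congr_deriv ?_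
    field_simp
    ring
  · apply ContinuousOn.intervalIntegrable
    rw [uIcc_of_le hab]
    exact cont_w2 hr fun x hx => ha.trans hx.1

theorem cm_sub_one {r : ℝ} (hr : 0 < r) : cm r - 1 = 1 / ((r + 1) * bb r - 1) := by
  have h := lt_mul_bb hr
  unfold cm
  have : (r + 1) * bb r - 1 ≠ 0 := by linarith
  field_simp
  ring

theorem cm_key {r : ℝ} (hr : 0 < r) : cm r * (bb r - 1 / (r + 1)) = bb r := by
  have h := lt_mul_bb hr
  unfold cm
  have : (r + 1) * bb r - 1 ≠ 0 := by linarith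
  field_simp

/-- the scalar weight inequality -/
theorem weight_w {J : ℝ → ℝ} {r : ℝ} (hr : 0 < r) (hc : ContinuousOn J (Icc 0 1))
    (hcv : ConvexOn ℝ (Icc 0 1) J) (h0 : ∀ ν ∈ Icc (0 : ℝ) 1, 0 ≤ J ν) :
    ∃ l ∈ Icc (0 : ℝ) 1, Kf r J l ≤ cm r * ∫ ν in (0 : ℝ)..1, ν / (r + ν) ^ 2 * J ν := by
  obtain ⟨l, hl, hmin⟩ := isCompact_Icc.exists_isMinOn (nonempty_Icc.2 (zero_le_one' ℝ)) hc
  refine ⟨l, hl, ?_⟩
  have hm : ∀ ν ∈ Icc (0 : ℝ) 1, J l ≤ J ν := fun ν hν => hmin hν
  -- monotonicity above the minimum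
  have hmono : ∀ a ∈ Icc l 1, ∀ b ∈ Icc l 1, a ≤ b → J a ≤ J b := by
    intro a ha b hb hab
    have hbI : b ∈ Icc (0 : ℝ) 1 := ⟨hl.1.trans hb.1, hb.2⟩
    have h1 := hcv.le_max_of_mem_Icc hl hbI (z := a) ⟨ha.1, hab⟩
    rwa [max_eq_right (hm b hbI)] at h1
  set m := J l with hmdef
  have hm0 : 0 ≤ m := h0 l hl
  have hcm1 : 0 < cm r - 1 := by
    rw [cm_sub_one hr]
    have := lt_mul_bb hr
    have : 0 < (r + 1) * bb r - 1 := by linarith
    positivity
  set c := cm r with hcdef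
  set W : ℝ → ℝ := fun ν => 1 / (r + ν) - c * (ν / (r + ν) ^ 2) with hW
  have hcW : ∀ {a b : ℝ}, 0 ≤ a → ContinuousOn W (Icc a b) := fun ha =>
    (cont_w1 hr fun x hx => ha.trans hx.1).sub
      (continuousOn_const.mul (cont_w2 hr fun x hx => ha.trans hx.1))
  have ii : ∀ {f : ℝ → ℝ} {a b : ℝ}, a ≤ b → ContinuousOn f (Icc a b) →
      IntervalIntegrable f volume a b := by
    intro f a b hab hf
    apply ContinuousOn.intervalIntegrable
    rwa [uIcc_of_le hab]
  have hJl : ContinuousOn J (Icc 0 l) := hc.mono (Icc_subset_Icc_right hl.2)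
  have hJr : ContinuousOn J (Icc l 1) := hc.mono (Icc_subset_Icc_left hl.1)
  have c2l : ContinuousOn (fun ν : ℝ => ν / (r + ν) ^ 2) (Icc 0 l) := cont_w2 hr fun x hx => hx.1
  have c2r : ContinuousOn (fun ν : ℝ => ν / (r + ν) ^ 2) (Icc l 1) :=
    cont_w2 hr fun x hx => hl.1.trans hx.1
  have c1r : ContinuousOn (fun ν : ℝ => 1 / (r + ν)) (Icc l 1) :=
    cont_w1 hr fun x hx => hl.1.trans hx.1
  -- the sign of `W`
  set ν₀ := r / (c - 1) with hν₀
  have hν0 : 0 < ν₀ := div_pos hr hcm1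
  have hν1 : ν₀ < 1 := by
    rw [hν₀, div_lt_one hcm1, cm_sub_one hr, lt_div_iff₀ (by have := lt_mul_bb hr; linarith)]
    have h1 := mul_bb_lt hr
    nlinarith
  have hWeq : ∀ ν, 0 ≤ ν → W ν = (c - 1) * (ν₀ - ν) / (r + ν) ^ 2 := by
    intro ν hν
    have h1 : r + ν ≠ 0 := by positivity
    have h2 : (c - 1) * ν₀ = r := by
      rw [hν₀]
      field_simp
    have h3 : (c - 1) * (ν₀ - ν) = r - (c - 1) * ν := by rw [mul_sub, h2]
    rw [h3]
    simp only [hW]
    field_simp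
    ring
  have hWpos : ∀ ν, 0 ≤ ν → ν ≤ ν₀ → 0 ≤ W ν := by
    intro ν h1 h2
    rw [hWeq ν h1]
    have : 0 ≤ ν₀ - ν := by linarith
    positivity
  have hWneg : ∀ ν, 0 ≤ ν → ν₀ ≤ ν → W ν ≤ 0 := by
    intro ν h1 h2
    rw [hWeq ν h1]
    apply div_nonpos_of_nonpos_of_nonneg _ (by positivity)
    exact mul_nonpos_of_nonneg_of_nonpos hcm1.le (by linarith)
  have hWint : ∀ a b, 0 ≤ a → a ≤ b → ∫ ν in a..b, W ν =
      (Real.log (r + b) - Real.log (r + a)) - c * ((Real.log (r + b) + r / (r + b)) -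
      (Real.log (r + a) + r / (r + a))) := by
    intro a b ha hab
    simp only [hW]
    rw [intervalIntegral.integral_sub (ii hab (cont_w1 hr fun x hx => ha.trans hx.1))
      ((ii hab (cont_w2 hr fun x hx => ha.trans hx.1)).const_mul c), int_w1 hr ha hab,
      intervalIntegral.integral_const_mul, int_w2 hr ha hab]
  have hlog : bb r = Real.log (r + 1) - Real.log r := bb_eq hr
  have hW01 : ∫ ν in (0 : ℝ)..1, W ν = 0 := by
    rw [hWint 0 1 le_rfl zero_le_one, add_zero, ← hlog]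
    have h1 := cm_key hr
    rw [← hcdef] at h1
    have h2 : (Real.log (r + 1) + r / (r + 1)) - (Real.log r + r / r) = bb r - 1 / (r + 1) := by
      rw [hlog]
      field_simp
      ring
    rw [h2, h1, sub_self]
  -- the upper part
  have hup : ∫ ν in l..1, W ν * J ν ≤ m * ∫ ν in l..1, W ν := by
    rw [← intervalIntegral.integral_const_mul]
    rcases le_or_gt l ν₀ with hlν | hlν
    · have hν₀I : ν₀ ∈ Icc l 1 := ⟨hlν, hν1.le⟩
      have h1 : ∫ ν in l..1, W ν * J ν ≤ J ν₀ * ∫ ν in l..1, W ν := by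
        rw [← intervalIntegral.integral_const_mul]
        refine intervalIntegral.integral_mono_on hl.2 (ii hl.2 ((hcW hl.1).mul hJr))
          (ii hl.2 (continuousOn_const.mul (hcW hl.1))) fun ν hν => ?_
        have hν' := hl.1.trans hν.1
        rcases le_total ν ν₀ with h | h
        · rw [mul_comm (J ν₀)]
          exact mul_le_mul_of_nonneg_left (hmono ν hν ν₀ hν₀I h) (hWpos ν hν' h)
        · rw [mul_comm (J ν₀)]
          exact mul_le_mul_of_nonpos_left (hmono ν₀ hν₀I ν hν h) (hWneg ν hν' h)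
      refine h1.trans ?_
      rw [intervalIntegral.integral_const_mul]
      refine mul_le_mul_of_nonpos_right (hm ν₀ ⟨hl.1.trans hlν, hν1.le⟩) ?_
      have h2 : (∫ ν in (0 : ℝ)..l, W ν) + ∫ ν in l..1, W ν = ∫ ν in (0 : ℝ)..1, W ν :=
        intervalIntegral.integral_add_adjacent_intervals (ii hl.1 (hcW le_rfl))
          (ii hl.2 (hcW hl.1))
      have h3 : 0 ≤ ∫ ν in (0 : ℝ)..l, W ν :=
        intervalIntegral.integral_nonneg hl.1 fun ν hν => hWpos ν hν.1 (hν.2.trans hlν)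
      linarith
    · refine intervalIntegral.integral_mono_on hl.2 (ii hl.2 ((hcW hl.1).mul hJr))
        (ii hl.2 (continuousOn_const.mul (hcW hl.1))) fun ν hν => ?_
      rw [mul_comm m]
      have hν' := hl.1.trans hν.1
      exact mul_le_mul_of_nonpos_left (hm ν ⟨hν', hν.2⟩) (hWneg ν hν' (hlν.le.trans hν.1))
  -- the lower part
  have hlow : m * ∫ ν in (0 : ℝ)..l, ν / (r + ν) ^ 2 ≤ ∫ ν in (0 : ℝ)..l, ν / (r + ν) ^ 2 * J ν := by
    rw [← intervalIntegral.integral_const_mul]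
    refine intervalIntegral.integral_mono_on hl.1 (ii hl.1 (continuousOn_const.mul c2l))
      (ii hl.1 (c2l.mul hJl)) fun ν hν => ?_
    rw [mul_comm m]
    refine mul_le_mul_of_nonneg_left (hm ν ⟨hν.1, hν.2.trans hl.2⟩) ?_
    have := hν.1
    positivity
  have hsplit : ∫ ν in (0 : ℝ)..1, ν / (r + ν) ^ 2 * J ν =
      (∫ ν in (0 : ℝ)..l, ν / (r + ν) ^ 2 * J ν) + ∫ ν in l..1, ν / (r + ν) ^ 2 * J ν :=
    (intervalIntegral.integral_add_adjacent_intervals (ii hl.1 (c2l.mul hJl))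
      (ii hl.2 (c2r.mul hJr))).symm
  have hWJ : ∫ ν in l..1, W ν * J ν = (∫ ν in l..1, 1 / (r + ν) * J ν) -
      c * ∫ ν in l..1, ν / (r + ν) ^ 2 * J ν := by
    have i1 : IntervalIntegrable (fun ν => 1 / (r + ν) * J ν) volume l 1 :=
      ii hl.2 (c1r.mul hJr)
    have i2 : IntervalIntegrable (fun ν => c * (ν / (r + ν) ^ 2 * J ν)) volume l 1 :=
      (ii hl.2 (c2r.mul hJr)).const_mul c
    rw [← intervalIntegral.integral_const_mul, ← intervalIntegral.integral_sub i1 i2]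
    congr 1
    funext ν
    simp only [hW]
    ring
  have hcl := hWint l 1 hl.1 hl.2
  have h2l := int_w2 hr le_rfl hl.1
  rw [add_zero, div_self hr.ne'] at h2l
  have hb := cm_key hr
  rw [← hcdef] at hb
  have hfin : (1 - c) * (m * ∫ ν in (0 : ℝ)..l, ν / (r + ν) ^ 2) + l / (r + l) * m +
      m * ∫ ν in l..1, W ν = 0 := by
    rw [hcl, h2l]
    have h3 : r / (r + l) = 1 - l / (r + l) := by
      have : r + l ≠ 0 := by have := hl.1; positivity
      field_simp
      ring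
    have h4 : r / (r + 1) = 1 - 1 / (r + 1) := by
      field_simp
      ring
    rw [h3, h4]
    rw [hlog] at hb
    linear_combination (-m) * hb
  unfold Kf
  rw [hsplit]
  have h5 : (1 - c) * (∫ ν in (0 : ℝ)..l, ν / (r + ν) ^ 2 * J ν) ≤
      (1 - c) * (m * ∫ ν in (0 : ℝ)..l, ν / (r + ν) ^ 2) :=
    mul_le_mul_of_nonpos_left hlow (by linarith)
  rw [← hmdef]
  linarith

end

end Vale.Agent.P369Q
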